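import Vale.Agent.P073.GB200.Inputs

/-!
# P073, block GB3: elementary facts on the complex `Cx3` and on crossing patterns
-/

set_option linter.unusedSectionVars false

open Set Metric Topology Filter

namespace P073.GB200

open P073 P073.PR720 P073.GB73
open Vale.Agent.P073.St (V)

/-! ### local finiteness, relative closedness -/

section LF

variable {E : Type*} [NormedAddCommGroup E] [NormedSpace ℝ E] {ι κ : Type*}

/-- `X` is relatively closed in `Ω` -/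
def RC (Ω X : Set E) : Prop := ∀ z ∈ Ω, z ∈ closure X → z ∈ X

theorem RC.union {Ω X Y : Set E} (hX : RC Ω X) (hY : RC Ω Y) : RC Ω (X ∪ Y) := by
  intro z hz hcl
  rw [closure_union] at hcl
  rcases hcl with h | h
  · exact Or.inl (hX z hz h)
  · exact Or.inr (hY z hz h)

theorem RC.iUnion {Ω : Set E} {A : ι → Set E} (h : LF A Ω) (hA : ∀ i, IsClosed (A i)) :
    RC Ω (⋃ i, A i) := fun _ hz hcl => h.closed hA hz hcl

theorem LF.sum {A : ι → Set E} {A' : κ → Set E} {W : Set E} (h : LF A W) (h' : LF A' W) :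
    LF (Sum.elim A A') W := by
  intro z hz
  obtain ⟨U, hU, hf⟩ := h z hz
  obtain ⟨U', hU', hf'⟩ := h' z hz
  refine ⟨U ∩ U', inter_mem hU hU', ((hf.image Sum.inl).union (hf'.image Sum.inr)).subset ?_⟩
  rintro (i | i) hi
  · exact Or.inl ⟨i, hi.mono (inter_subset_inter_right _ inter_subset_left), rfl⟩
  · exact Or.inr ⟨i, hi.mono (inter_subset_inter_right _ inter_subset_right), rfl⟩

theorem LF.comp {A : ι → Set E} {W : Set E} (h : LF A W) {f : κ → ι} (hf : Function.Injective f) :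
    LF (fun k => A (f k)) W := by
  intro z hz
  obtain ⟨U, hU, hfin⟩ := h z hz
  exact ⟨U, hU, Set.Finite.preimage (s := {i | (A i ∩ U).Nonempty}) hf.injOn hfin⟩

theorem LF.bool {A : ι → Set E} {W : Set E} (h : LF A W) :
    LF (fun p : ι × Bool => A p.1) W := by
  intro z hz
  obtain ⟨U, hU, hfin⟩ := h z hz
  exact ⟨U, hU, (hfin.prod (toFinite (univ : Set Bool))).subset fun p hp => ⟨hp, mem_univ _⟩⟩

/-- extension over cells, inside a set `Ω` -/
theorem attach {F : Type*} [NormedAddCommGroup F] [NormedSpace ℝ F] {Ω X : Set E} {Ω' Y : Set F}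
    (φ : ConHomeo X Y) (hXΩ : X ⊆ Ω) (hYΩ : Y ⊆ Ω')
    (n : ι → ℕ) (C B : ι → Set E) (C' B' : ι → Set F)
    (hC : ∀ i, ConBall (n i) (C i) (B i)) (hC' : ∀ i, ConBall (n i) (C' i) (B' i))
    (hφ : ∀ i, φ.toFun '' (B i) = B' i)
    (hX : ∀ i, C i ∩ X = B i) (hY : ∀ i, C' i ∩ Y = B' i)
    (hd : ∀ i j, i ≠ j → C i ∩ C j ⊆ X) (hd' : ∀ i j, i ≠ j → C' i ∩ C' j ⊆ Y)
    (hCΩ : ∀ i, C i ⊆ Ω) (hC'Ω : ∀ i, C' i ⊆ Ω') (rX : RC Ω X) (rY : RC Ω' Y)
    (lf : LF C Ω) (lf' : LF C' Ω') :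
    ∃ Φ : ConHomeo (X ∪ ⋃ i, C i) (Y ∪ ⋃ i, C' i), EqOn Φ.toFun φ.toFun X ∧
      ∀ i, Φ.toFun '' (C i) = C' i := by
  have s1 : X ∪ ⋃ i, C i ⊆ Ω := union_subset hXΩ (iUnion_subset hCΩ)
  have s2 : Y ∪ ⋃ i, C' i ⊆ Ω' := union_subset hYΩ (iUnion_subset hC'Ω)
  exact ConHomeo.exists_extend_cells φ n C B C' B' hC hC' hφ hX hY hd hd'
    (fun z hz hcl => rX z (s1 hz) hcl) (fun z hz hcl => rY z (s2 hz) hcl)
    (fun z hz => lf z (s1 hz)) (fun z hz => lf' z (s2 hz))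

end LF

variable {Vx B J I : Type} {e0 e1 : B → Vx} {inc : B → J → Prop} {qC : J → I → Prop} {Ω : Set V}

/-- crossed face -/
def CrT (inc : B → J → Prop) (P : Set B) (j : J) : Prop := {b | inc b j ∧ b ∈ P} ≠ ∅

/-- crossed cell -/
def CrC (inc : B → J → Prop) (qC : J → I → Prop) (P : Set B) (c : I) : Prop :=
  ∃ j, qC j c ∧ CrT inc P j

theorem crT_of {P : Set B} {b : B} {j : J} (h : inc b j) (hb : b ∈ P) : CrT inc P j := by
  intro h'
  have : b ∈ {b | inc b j ∧ b ∈ P} := ⟨h, hb⟩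
  rw [h'] at this
  exact this

theorem not_crT {P : Set B} {j : J} (h : ¬ CrT inc P j) : {b | inc b j ∧ b ∈ P} = ∅ :=
  not_not.1 h

namespace Cx

variable (K : Cx3 e0 e1 inc qC Ω)

theorem tile_sub_cell {s : J} {c : I} (h : qC s c) : K.tile s ⊆ K.cell c :=
  (subset_biUnion_of_mem (u := fun s => K.tile s) (show s ∈ {s | qC s c} from h)).trans
    (K.cball c).1

theorem cell_sub (c : I) : K.cell c ⊆ Ω := (subset_iUnion K.cell c).trans K.cover.subset

include K in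
theorem exists_cell (s : J) : ∃ c, qC s c := by
  obtain ⟨c, d, -, h⟩ := K.two s
  exact ⟨c, (h c).2 (Or.inl rfl)⟩

theorem tile_sub (s : J) : K.tile s ⊆ Ω := by
  obtain ⟨c, hc⟩ := exists_cell K s
  exact (tile_sub_cell K hc).trans (cell_sub K c)

theorem arc_sub (b : B) : K.arc b ⊆ Ω := by
  obtain ⟨j, hj⟩ := K.arc_tile b
  exact (K.toCx2.arc_subset_tile hj).trans (tile_sub K j)

theorem lf_tile : LF K.tile Ω :=
  K.clf.of_cover qC (fun s => by
    obtain ⟨c, hc⟩ := exists_cell K s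
    exact ⟨c, hc, tile_sub_cell K hc⟩) K.fin_qC

theorem lf_arc : LF K.arc Ω :=
  (lf_tile K).of_cover inc (fun b => by
    obtain ⟨j, hj⟩ := K.arc_tile b
    exact ⟨j, hj, K.toCx2.arc_subset_tile hj⟩) K.fin_inc

theorem cell_closed (c : I) : IsClosed (K.cell c) := (K.cball c).isClosed

theorem tile_closed (j : J) : IsClosed (K.tile j) := (K.tball j).isClosed

theorem arc_closed (b : B) : IsClosed (K.arc b) := (K.ball b).isClosed

/-- a point of an arc and a cell is on the boundary of the cell -/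
theorem cell_arc {c : I} {b : B} {z : V} (hz : z ∈ K.cell c) (hb : z ∈ K.arc b) :
    ∃ s, qC s c ∧ z ∈ K.tile s := by
  obtain ⟨j, hj⟩ := K.arc_tile b
  obtain ⟨s, hs, hzs⟩ := mem_iUnion₂.1
    (K.cell_tile c j ⟨hz, K.toCx2.arc_subset_tile hj hb⟩)
  exact ⟨s, hs, hzs⟩

theorem cell_tile' {c : I} {j : J} {z : V} (hz : z ∈ K.cell c) (hb : z ∈ K.tile j) :
    ∃ s, qC s c ∧ z ∈ K.tile s := by
  obtain ⟨s, hs, hzs⟩ := mem_iUnion₂.1 (K.cell_tile c j ⟨hz, hb⟩)
  exact ⟨s, hs, hzs⟩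

theorem cell_cell' {c d : I} (hcd : c ≠ d) {z : V} (hz : z ∈ K.cell c) (hb : z ∈ K.cell d) :
    ∃ s, qC s c ∧ z ∈ K.tile s := by
  obtain ⟨j, hj⟩ := mem_iUnion.1 (K.cell_cell c d hcd ⟨hz, hb⟩)
  exact cell_tile' K hz hj

theorem mem_bd {j : J} {z : V} : z ∈ K.toCx2.bd j ↔ ∃ b, inc b j ∧ z ∈ K.arc b := by
  constructor
  · intro h
    obtain ⟨b, hb, hz⟩ := mem_iUnion₂.1 h
    exact ⟨b, hb, hz⟩
  · rintro ⟨b, hb, hz⟩
    exact mem_iUnion₂.2 ⟨b, hb, hz⟩

theorem tile_arc' {j : J} {b : B} {z : V} (hz : z ∈ K.tile j) (hb : z ∈ K.arc b) :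
    z ∈ K.toCx2.bd j := K.tile_arc j b ⟨hz, hb⟩

theorem tile_tile' {j k : J} (h : j ≠ k) {z : V} (hz : z ∈ K.tile j) (hk : z ∈ K.tile k) :
    z ∈ K.toCx2.bd j := by
  obtain ⟨b, hb⟩ := mem_iUnion.1 (K.tile_tile j k h ⟨hz, hk⟩)
  exact tile_arc' K hz hb

/-- the open cells are open -/
theorem isOpen_open_cell (hΩ : IsOpen Ω) (c : I) : IsOpen (K.cell c \ ⋃ s, K.tile s) := by
  rw [isOpen_iff_mem_nhds]
  rintro z ⟨hz, hzt⟩
  have hzΩ : z ∈ Ω := cell_sub K c hz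
  have h1 : z ∉ closure (⋃ s, K.tile s) := fun h =>
    hzt ((lf_tile K).closed (tile_closed K) hzΩ h)
  have h2 : z ∉ closure (⋃ d : {d // d ≠ c}, K.cell d.1) := by
    intro h
    have hlf : LF (fun d : {d // d ≠ c} => K.cell d.1) Ω := LF.comp K.clf Subtype.val_injective
    obtain ⟨d, hd⟩ := mem_iUnion.1 (hlf.closed (fun d => cell_closed K d.1) hzΩ h)
    exact hzt (K.cell_cell c d.1 d.2.symm ⟨hz, hd⟩)
  filter_upwards [hΩ.mem_nhds hzΩ, isClosed_closure.isOpen_compl.mem_nhds h1,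
    isClosed_closure.isOpen_compl.mem_nhds h2] with w hw hw1 hw2
  have hw3 : w ∉ ⋃ s, K.tile s := fun h => hw1 (subset_closure h)
  refine ⟨?_, hw3⟩
  rw [← K.cover] at hw
  obtain ⟨d, hd⟩ := mem_iUnion.1 hw
  by_cases hdc : d = c
  · rw [← hdc]; exact hd
  · exact absurd (subset_closure (mem_iUnion.2 ⟨⟨d, hdc⟩, hd⟩)) hw2

theorem sphere_ne (n : ℕ) : (sphere (0 : Fin (n + 1) → ℝ) 1).Nonempty :=
  NormedSpace.sphere_nonempty.2 zero_le_one

theorem nonempty_of_conSphere {n : ℕ} {S : Set V} (h : ConSphere n S) : S.Nonempty := by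
  obtain ⟨φ⟩ := h
  rw [← φ.symm.image_eq]
  exact (sphere_ne n).image _

include K in
/-- every tile contains a vertex on its boundary -/
theorem exists_vert_tile (j : J) : ∃ b, inc b j := by
  obtain ⟨z, hz⟩ := nonempty_of_conSphere (n := 1) (K.tball j).conSphere
  obtain ⟨b, hb, -⟩ := mem_iUnion₂.1 hz
  exact ⟨b, hb⟩

include K in
theorem exists_tile_cell (c : I) : ∃ s, qC s c := by
  obtain ⟨z, hz⟩ := nonempty_of_conSphere (n := 2) (K.cball c).conSphere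
  obtain ⟨b, hb, -⟩ := mem_iUnion₂.1 hz
  exact ⟨b, hb⟩

theorem vert0_mem (b : B) : K.y (e0 b) ∈ K.arc b := (K.ball b).1 (Or.inl rfl)

theorem vert1_mem (b : B) : K.y (e1 b) ∈ K.arc b := (K.ball b).1 (Or.inr rfl)

end Cx

/-! ### crossing patterns -/

namespace Cr

variable {K : Cx3 e0 e1 inc qC Ω} {S : Set V} {P : Set B} {q : B → V}

theorem off' (h : Crosses K.toGraph id S P q) {b : B} (hb : b ∉ P) :
    Disjoint (K.arc b) (frontier S) := by
  have := h.off b hb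
  rwa [image_id] at this

theorem on' (h : Crosses K.toGraph id S P q) {b : B} (hb : b ∈ P) :
    K.arc b ∩ frontier S = {q b} := by
  have := h.on b hb
  rwa [image_id] at this

theorem q_arc (h : Crosses K.toGraph id S P q) {b : B} (hb : b ∈ P) : q b ∈ K.arc b := by
  have : q b ∈ K.arc b ∩ frontier S := by rw [on' h hb]; rfl
  exact this.1

theorem q_fr (h : Crosses K.toGraph id S P q) {b : B} (hb : b ∈ P) : q b ∈ frontier S := by
  have : q b ∈ K.arc b ∩ frontier S := by rw [on' h hb]; rfl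
  exact this.2

/-- a point of an arc on the frontier -/
theorem eq_q (h : Crosses K.toGraph id S P q) {b : B} {z : V} (hz : z ∈ K.arc b)
    (hf : z ∈ frontier S) : b ∈ P ∧ z = q b := by
  by_cases hb : b ∈ P
  · refine ⟨hb, ?_⟩
    have : z ∈ K.arc b ∩ frontier S := ⟨hz, hf⟩
    rw [on' h hb] at this
    exact this
  · exact absurd hf (Set.disjoint_left.1 (off' h hb) hz)

/-- vertices are not on the frontier -/
theorem vert_notMem (h : Crosses K.toGraph id S P q) (hS : IsClosed S) (v : Vx) :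
    K.y v ∉ frontier S := by
  intro hv
  obtain ⟨b, hb⟩ := K.vert_arc v
  have hvb : K.y v ∈ K.arc b := by
    rcases hb with hb | hb
    · rw [hb]; exact Cx.vert0_mem K b
    · rw [hb]; exact Cx.vert1_mem K b
  obtain ⟨hbP, -⟩ := eq_q h hvb hv
  have hends := h.ends b hbP
  simp only [id] at hends
  rcases hends with ⟨h1, h2⟩ | ⟨h1, h2⟩
  · rcases hb with hb | hb
    · rw [hb] at hv; exact hv.2 h1
    · rw [hb] at hv; exact h2 (hS.frontier_subset hv)
  · rcases hb with hb | hb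
    · rw [hb] at hv; exact h2 (hS.frontier_subset hv)
    · rw [hb] at hv; exact hv.2 h1

/-- a crossing point is on one arc only -/
theorem q_unique (h : Crosses K.toGraph id S P q) (hS : IsClosed S) {b b' : B} (hb : b ∈ P)
    (hb' : q b ∈ K.arc b') : b = b' := by
  by_contra hne
  obtain ⟨v, hv⟩ := K.inter b b' hne ⟨q_arc h hb, hb'⟩
  exact vert_notMem h hS v (hv ▸ q_fr h hb)

theorem q_inj (h : Crosses K.toGraph id S P q) (hS : IsClosed S) {b b' : B} (hb : b ∈ P)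
    (hb' : b' ∈ P) (he : q b = q b') : b = b' :=
  q_unique h hS hb (he ▸ q_arc h hb')

theorem q_inc (h : Crosses K.toGraph id S P q) (hS : IsClosed S) {b : B} {j : J} (hb : b ∈ P)
    (hj : q b ∈ K.tile j) : inc b j := by
  obtain ⟨b', hb', hz⟩ := (Cx.mem_bd K).1 (Cx.tile_arc' K hj (q_arc h hb))
  rw [q_unique h hS hb hz]; exact hb'

/-- the boundary of a face on the frontier -/
theorem bd_frontier (h : Crosses K.toGraph id S P q) {j : J} {b b' : B}
    (hbb : {b | inc b j ∧ b ∈ P} = {b, b'}) : K.toCx2.bd j ∩ frontier S = {q b, q b'} := by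
  have h1 : b ∈ {b | inc b j ∧ b ∈ P} := by rw [hbb]; exact Or.inl rfl
  have h2 : b' ∈ {b | inc b j ∧ b ∈ P} := by rw [hbb]; exact Or.inr rfl
  apply Subset.antisymm
  · rintro z ⟨hz, hf⟩
    obtain ⟨b₁, hb₁, hz₁⟩ := (Cx.mem_bd K).1 hz
    obtain ⟨hP, rfl⟩ := eq_q h hz₁ hf
    have : b₁ ∈ {b | inc b j ∧ b ∈ P} := ⟨hb₁, hP⟩
    rw [hbb] at this
    rcases this with rfl | h'
    · exact Or.inl rfl
    · have h'' : b₁ = b' := h'
      rw [h'']; exact Or.inr rfl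
  · rintro z (rfl | hz)
    · exact ⟨(Cx.mem_bd K).2 ⟨b, h1.1, q_arc h h1.2⟩, q_fr h h1.2⟩
    · have hz' : z = q b' := hz
      rw [hz']
      exact ⟨(Cx.mem_bd K).2 ⟨b', h2.1, q_arc h h2.2⟩, q_fr h h2.2⟩

/-- a crossed face meets the interior and the exterior -/
theorem meets (h : Crosses K.toGraph id S P q) {j : J} (hj : CrT inc P j) :
    (K.toCx2.bd j ∩ interior S).Nonempty ∧ (K.toCx2.bd j \ S).Nonempty := by
  obtain ⟨b, hb, hbP⟩ := nonempty_iff_ne_empty.2 hj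
  have h0 : K.y (e0 b) ∈ K.toCx2.bd j := (Cx.mem_bd K).2 ⟨b, hb, Cx.vert0_mem K b⟩
  have h1 : K.y (e1 b) ∈ K.toCx2.bd j := (Cx.mem_bd K).2 ⟨b, hb, Cx.vert1_mem K b⟩
  rcases h.ends b hbP with ⟨h2, h3⟩ | ⟨h2, h3⟩
  · exact ⟨⟨_, h0, h2⟩, ⟨_, h1, h3⟩⟩
  · exact ⟨⟨_, h1, h2⟩, ⟨_, h0, h3⟩⟩

end Cr

end P073.GB200
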