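import Vale.Agent.P073.GB200.JBall
import Vale.Agent.P073.PR.Hemi
import Vale.Agent.P073.PT.MosConn
import Vale.Agent.P073.PT.ArcGlue
import Vale.Agent.P073.GB932.Defs

/-!
# P073, block GB3: cutting balls by discs

`cut`: a disc cuts a ball into two balls, from the ambient standardness of spheres and
Jordan-Schoenflies on the standard sphere one dimension lower.
-/

set_option linter.unusedSectionVars false

open Set Metric Topology Filter

namespace P073.GB200

open P073 P073.GB932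

variable {E F : Type*} [NormedAddCommGroup E] [NormedSpace ℝ E]
  [NormedAddCommGroup F] [NormedSpace ℝ F]

/-- two balls with a common boundary sphere form a sphere -/
def GlueSph (m : ℕ) (E : Type*) [NormedAddCommGroup E] [NormedSpace ℝ E] : Prop :=
  ∀ D₁ D₂ γ : Set E, ConBall m D₁ γ → ConBall m D₂ γ → D₁ ∩ D₂ = γ → ConSphere m (D₁ ∪ D₂)

theorem exists_pair {D γ : Set E} (h : ConBall 1 D γ) : ∃ p q, γ = {p, q} := by
  obtain ⟨φ, hφ⟩ := h.eq_preimage
  rw [← hφ, sphere_fin_one, image_pair]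
  exact ⟨_, _, rfl⟩

theorem glueSph_one : GlueSph 1 E := by
  intro D₁ D₂ γ h1 h2 h
  obtain ⟨p, q, rfl⟩ := exists_pair h1
  exact h1.circle h2 h.subset

theorem glueSph_two : GlueSph 2 E := by
  intro D₁ D₂ γ h1 h2 h
  obtain ⟨α⟩ := h1.conSphere
  obtain ⟨β⟩ := conBall_upperHemi.conSphere
  let φ : ConHomeo γ equator3 := α.trans β.symm
  obtain ⟨Φ₁, a1, a2⟩ := h1.exists_extend conBall_upperHemi φ
  obtain ⟨Φ₂, b1, b2⟩ := h2.exists_extend conBall_lowerHemi φ
  have hcov : upperHemi ∪ lowerHemi = sphere (0 : Fin 3 → ℝ) 1 := by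
    ext v
    constructor
    · rintro (h | h)
      · exact h.1
      · exact h.1
    · intro hv
      rcases le_total 0 (v 2) with h | h
      · exact Or.inl ⟨hv, h⟩
      · exact Or.inr ⟨hv, h⟩
  have hint : upperHemi ∩ lowerHemi = equator3 := by
    ext v
    constructor
    · rintro ⟨h, h'⟩
      exact ⟨h.1, le_antisymm h'.2 h.2⟩
    · rintro ⟨h, h'⟩
      exact ⟨⟨h, h'.ge⟩, ⟨h, h'.le⟩⟩
  refine ⟨(ConHomeo.glue Φ₁ Φ₂ h1.isClosed h2.isClosed conBall_upperHemi.isClosed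
    conBall_lowerHemi.isClosed ?_ ?_).cast rfl hcov⟩
  · intro x hx
    rw [h] at hx
    rw [a1 hx, b1 hx]
  · rw [hint, h, a2]

theorem image_image_symm {X : Set E} {Y : Set F} (φ : ConHomeo X Y) {S : Set E} (hS : S ⊆ X) :
    φ.symm.toFun '' (φ.toFun '' S) = S := by
  rw [image_image]
  have : ∀ x ∈ S, φ.symm.toFun (φ.toFun x) = x := fun x hx => φ.left_inv (hS hx)
  rw [image_congr this, image_id']

theorem image_symm_image {X : Set E} {Y : Set F} (φ : ConHomeo X Y) {S : Set F} (hS : S ⊆ Y) :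
    φ.toFun '' (φ.symm.toFun '' S) = S := by
  rw [image_image]
  have : ∀ x ∈ S, φ.toFun (φ.symm.toFun x) = x := fun x hx => φ.right_inv (hS hx)
  rw [image_congr this, image_id']

/-- **Cutting.** -/
theorem cut {k : ℕ} (hA : AmbStd (k + 2)) (hJ : JordanSch (k + 1) (sphere (0 : Fin (k + 2) → ℝ) 1))
    (hG : GlueSph (k + 1) (Fin (k + 2) → ℝ)) {C B D γ : Set E} (hC : ConBall (k + 2) C B)
    (hD : ConBall (k + 1) D γ) (hDC : D ⊆ C) (hDB : D ∩ B = γ) :
    ∃ B₁ B₂ C₁ C₂ : Set E, B₁ ∪ B₂ = B ∧ B₁ ∩ B₂ = γ ∧ ConBall (k + 1) B₁ γ ∧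
      ConBall (k + 1) B₂ γ ∧ ConBall (k + 2) C₁ (B₁ ∪ D) ∧ ConBall (k + 2) C₂ (B₂ ∪ D) ∧
      C₁ ∪ C₂ = C ∧ C₁ ∩ C₂ = D := by
  obtain ⟨hBC, φ, hφ⟩ := hC
  have hγD : γ ⊆ D := hD.1
  have hγB : γ ⊆ B := hDB ▸ inter_subset_right
  have hD' : ConBall (k + 1) (φ.toFun '' D) (φ.toFun '' γ) := hD.image φ hDC
  have hγS : φ.toFun '' γ ⊆ sphere 0 1 := hφ ▸ image_mono hγB
  have hDS : φ.toFun '' D ∩ sphere 0 1 = φ.toFun '' γ := by
    rw [← hφ, ← φ.injOn.image_inter hDC hBC, hDB]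
  have hDcb : φ.toFun '' D ⊆ closedBall 0 1 := by
    rintro _ ⟨x, hx, rfl⟩; exact φ.mapsTo (hDC hx)
  obtain ⟨U, W, hUW, hcov, hUne, hWne, hU, hW⟩ := hJ _ hγS hD'.conSphere
  have hUS : ∀ x ∈ U, x ∈ sphere (0 : Fin (k + 2) → ℝ) 1 ∧ x ∉ φ.toFun '' γ := fun x hx => by
    have : x ∈ U ∪ W := Or.inl hx
    rw [hcov] at this; exact this
  have hWS : ∀ x ∈ W, x ∈ sphere (0 : Fin (k + 2) → ℝ) 1 ∧ x ∉ φ.toFun '' γ := fun x hx => by
    have : x ∈ U ∪ W := Or.inr hx
    rw [hcov] at this; exact this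
  set A₁ := U ∪ φ.toFun '' γ with hA₁
  set A₂ := W ∪ φ.toFun '' γ with hA₂
  have hA₁S : A₁ ⊆ sphere 0 1 := union_subset (fun x hx => (hUS x hx).1) hγS
  have hA₂S : A₂ ⊆ sphere 0 1 := union_subset (fun x hx => (hWS x hx).1) hγS
  have hAA : A₁ ∪ A₂ = sphere 0 1 := by
    apply Subset.antisymm (union_subset hA₁S hA₂S)
    intro x hx
    by_cases hxγ : x ∈ φ.toFun '' γ
    · exact Or.inl (Or.inr hxγ)
    · have : x ∈ U ∪ W := by rw [hcov]; exact ⟨hx, hxγ⟩
      rcases this with h | h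
      · exact Or.inl (Or.inl h)
      · exact Or.inr (Or.inl h)
  have hAi : A₁ ∩ A₂ = φ.toFun '' γ := by
    apply Subset.antisymm
    · rintro x ⟨h1, h2⟩
      rcases h1 with h1 | h1
      · rcases h2 with h2 | h2
        · exact absurd h2 (Set.disjoint_left.1 hUW h1)
        · exact h2
      · exact h1
    · intro x hx; exact ⟨Or.inr hx, Or.inr hx⟩
  have hA₁D : A₁ ∩ φ.toFun '' D = φ.toFun '' γ := by
    apply Subset.antisymm
    · rintro x ⟨h1, h2⟩
      rw [← hDS]; exact ⟨h2, hA₁S h1⟩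
    · intro x hx; exact ⟨Or.inr hx, image_mono hγD hx⟩
  have hA₂D : A₂ ∩ φ.toFun '' D = φ.toFun '' γ := by
    apply Subset.antisymm
    · rintro x ⟨h1, h2⟩
      rw [← hDS]; exact ⟨h2, hA₂S h1⟩
    · intro x hx; exact ⟨Or.inr hx, image_mono hγD hx⟩
  obtain ⟨Φ₁, hΦ₁⟩ := hA _ (hG _ _ _ hU hD' hA₁D)
  obtain ⟨Φ₂, hΦ₂⟩ := hA _ (hG _ _ _ hW hD' hA₂D)
  have e1 : Φ₁.symm.toFun '' sphere 0 1 = A₁ ∪ φ.toFun '' D := by
    rw [← hΦ₁]; exact image_image_symm Φ₁ (subset_univ _)
  have e2 : Φ₂.symm.toFun '' sphere 0 1 = A₂ ∪ φ.toFun '' D := by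
    rw [← hΦ₂]; exact image_image_symm Φ₂ (subset_univ _)
  have j0 : JBall (closedBall (0 : Fin (k + 2) → ℝ) 1) (A₁ ∪ A₂) := by
    rw [hAA]; exact jball_std (by omega)
  have j1 : JBall (Φ₁.symm.toFun '' closedBall 0 1) (A₁ ∪ φ.toFun '' D) := by
    rw [← e1]; exact (jball_std (by omega)).image Φ₁.symm.toHomeomorph
  have j2 : JBall (Φ₂.symm.toFun '' closedBall 0 1) (A₂ ∪ φ.toFun '' D) := by
    rw [← e2]; exact (jball_std (by omega)).image Φ₂.symm.toHomeomorph
  have b1 : ConBall (k + 2) (Φ₁.symm.toFun '' closedBall 0 1) (A₁ ∪ φ.toFun '' D) := by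
    rw [← e1]; exact (conBall_std _).image Φ₁.symm (subset_univ _)
  have b2 : ConBall (k + 2) (Φ₂.symm.toFun '' closedBall 0 1) (A₂ ∪ φ.toFun '' D) := by
    rw [← e2]; exact (conBall_std _).image Φ₂.symm (subset_univ _)
  obtain ⟨c1, c2, -, -⟩ := JBall.crosscut j0 j1 j2 hDcb
    (by rw [inter_comm, hA₁D]) (by rw [inter_comm, hA₂D]) hAi.subset (image_mono hγD)
    (fun h => by
      obtain ⟨x, hx⟩ := hUne
      exact (hUS x hx).2 (h (Or.inl hx)))
    (fun h => by
      obtain ⟨x, hx⟩ := hWne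
      exact (hWS x hx).2 (h (Or.inl hx)))
    hU.isClosed hW.isClosed
  set D₁ := Φ₁.symm.toFun '' closedBall 0 1 with hD₁
  set D₂ := Φ₂.symm.toFun '' closedBall 0 1 with hD₂
  have s1 : D₁ ⊆ closedBall 0 1 := by rw [c1]; exact subset_union_left
  have s2 : D₂ ⊆ closedBall 0 1 := by rw [c1]; exact subset_union_right
  have pbD : φ.symm.toFun '' (φ.toFun '' D) = D := image_image_symm φ hDC
  have pbγ : φ.symm.toFun '' (φ.toFun '' γ) = γ := image_image_symm φ (hγB.trans hBC)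
  have pbB : φ.symm.toFun '' sphere 0 1 = B := by rw [← hφ]; exact image_image_symm φ hBC
  refine ⟨φ.symm.toFun '' A₁, φ.symm.toFun '' A₂, φ.symm.toFun '' D₁, φ.symm.toFun '' D₂,
    ?_, ?_, ?_, ?_, ?_, ?_, ?_, ?_⟩
  · rw [← image_union, hAA, pbB]
  · rw [← φ.symm.injOn.image_inter (hA₁S.trans sphere_subset_closedBall)
      (hA₂S.trans sphere_subset_closedBall), hAi, pbγ]
  · have := hU.image φ.symm (hA₁S.trans sphere_subset_closedBall)
    rwa [pbγ] at this
  · have := hW.image φ.symm (hA₂S.trans sphere_subset_closedBall)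
    rwa [pbγ] at this
  · have := b1.image φ.symm s1
    rwa [image_union, pbD] at this
  · have := b2.image φ.symm s2
    rwa [image_union, pbD] at this
  · rw [← image_union, ← c1, φ.symm.image_eq]
  · rw [← φ.symm.injOn.image_inter s1 s2, c2, pbD]

/-- a set containing the interior of a ball and contained in the ball is preconnected -/
theorem preconn_between {n : ℕ} {C B S : Set E} (h : ConBall n C B) (h1 : C \ B ⊆ S)
    (h2 : S ⊆ C) : IsPreconnected S :=
  (PT.preconn_int h).subset_closure h1 (h2.trans (PT.subset_closure_int h))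

/-- a preconnected set missing the frontier -/
theorem in_or_out {S A : Set E} (hS : IsPreconnected S) (hd : Disjoint S (frontier A)) :
    S ⊆ interior A ∨ Disjoint S A := by
  have hcov : S ⊆ interior A ∪ (closure A)ᶜ := by
    intro x hx
    by_cases h : x ∈ closure A
    · by_cases h' : x ∈ interior A
      · exact Or.inl h'
      · exact absurd (show x ∈ frontier A from ⟨h, h'⟩) (Set.disjoint_left.1 hd hx)
    · exact Or.inr h
  have hdis : interior A ∩ (closure A)ᶜ = ∅ := by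
    rw [← Set.disjoint_iff_inter_eq_empty, Set.disjoint_left]
    exact fun x h1 h2 => h2 (subset_closure (interior_subset h1))
  rcases (isPreconnected_iff_subset_of_disjoint.1 hS) _ _ isOpen_interior
    isClosed_closure.isOpen_compl hcov (by rw [hdis, inter_empty]) with h | h
  · exact Or.inl h
  · exact Or.inr (Set.disjoint_left.2 fun x hx hA => h hx (subset_closure hA))

/-- **The two halves of a ball cut by a body.** -/
theorem inOut {k : ℕ} (hAm : AmbStd (k + 2))
    (hJ : JordanSch (k + 1) (sphere (0 : Fin (k + 2) → ℝ) 1))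
    (hG : GlueSph (k + 1) (Fin (k + 2) → ℝ)) {C B A : Set E} (hC : ConBall (k + 2) C B)
    (hA : IsClosed A) (hD : ConBall (k + 1) (C ∩ frontier A) (B ∩ frontier A))
    (hin : (C ∩ interior A).Nonempty) (hout : (C \ A).Nonempty) :
    ConBall (k + 2) (C ∩ A) ((B ∩ A) ∪ (C ∩ frontier A)) ∧
      ConBall (k + 2) (C \ interior A) ((B \ interior A) ∪ (C ∩ frontier A)) := by
  have hBC : B ⊆ C := hC.1
  have hfA : frontier A ⊆ A := hA.frontier_subset
  obtain ⟨B₁, B₂, C₁, C₂, hB, hBi, hB₁, hB₂, hC₁, hC₂, hCu, hCi⟩ := cut hAm hJ hG hC hD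
    inter_subset_left (by
      ext x; constructor
      · rintro ⟨⟨_, h⟩, h'⟩; exact ⟨h', h⟩
      · rintro ⟨h, h'⟩; exact ⟨⟨hBC h, h'⟩, h⟩)
  -- the two parts are connected and miss the frontier
  have key : ∀ (B₁ B₂ C₁ C₂ : Set E), B₁ ∪ B₂ = B → B₁ ⊆ C₁ → B₂ ⊆ C₂ →
      ConBall (k + 2) C₁ (B₁ ∪ (C ∩ frontier A)) → ConBall (k + 2) C₂ (B₂ ∪ (C ∩ frontier A)) →
      C₁ ∪ C₂ = C → C₁ ∩ C₂ = C ∩ frontier A → C₁ \ (C ∩ frontier A) ⊆ interior A →
      Disjoint (C₂ \ (C ∩ frontier A)) A →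
      ConBall (k + 2) (C ∩ A) ((B ∩ A) ∪ (C ∩ frontier A)) ∧
      ConBall (k + 2) (C \ interior A) ((B \ interior A) ∪ (C ∩ frontier A)) := by
    intro B₁ B₂ C₁ C₂ hB s1 s2 hC₁ hC₂ hCu hCi h1 h2
    have hC1C : C₁ ⊆ C := hCu ▸ subset_union_left
    have hC2C : C₂ ⊆ C := hCu ▸ subset_union_right
    have hD1 : C ∩ frontier A ⊆ C₁ := hCi ▸ inter_subset_left
    have hD2 : C ∩ frontier A ⊆ C₂ := hCi ▸ inter_subset_right
    have eA : C ∩ A = C₁ := by
      apply Subset.antisymm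
      · rintro x ⟨hx, hxA⟩
        by_contra hx1
        have hx2 : x ∈ C₂ := by
          rw [← hCu] at hx; exact hx.resolve_left hx1
        exact Set.disjoint_left.1 h2 ⟨hx2, fun h => hx1 (hD1 h)⟩ hxA
      · intro x hx
        refine ⟨hC1C hx, ?_⟩
        by_cases h : x ∈ C ∩ frontier A
        · exact hfA h.2
        · exact interior_subset (h1 ⟨hx, h⟩)
    have eO : C \ interior A = C₂ := by
      apply Subset.antisymm
      · rintro x ⟨hx, hxA⟩
        by_contra hx2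
        have hx1 : x ∈ C₁ := by
          rw [← hCu] at hx; exact hx.resolve_right hx2
        exact hxA (h1 ⟨hx1, fun h => hx2 (hD2 h)⟩)
      · intro x hx
        refine ⟨hC2C hx, fun hi => ?_⟩
        by_cases h : x ∈ C ∩ frontier A
        · exact h.2.2 hi
        · exact Set.disjoint_left.1 h2 ⟨hx, h⟩ (interior_subset hi)
    have eB1 : (B ∩ A) ∪ (C ∩ frontier A) = B₁ ∪ (C ∩ frontier A) := by
      apply Subset.antisymm
      · rintro x (⟨hx, hxA⟩ | hx)
        · rw [← hB] at hx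
          rcases hx with hx | hx
          · exact Or.inl hx
          · right
            rw [← hCi]
            refine ⟨?_, s2 hx⟩
            rw [← eA]
            exact ⟨hC2C (s2 hx), hxA⟩
        · exact Or.inr hx
      · rintro x (hx | hx)
        · left
          refine ⟨hB ▸ Or.inl hx, ?_⟩
          have : x ∈ C ∩ A := by rw [eA]; exact s1 hx
          exact this.2
        · exact Or.inr hx
    have eB2 : (B \ interior A) ∪ (C ∩ frontier A) = B₂ ∪ (C ∩ frontier A) := by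
      apply Subset.antisymm
      · rintro x (⟨hx, hxA⟩ | hx)
        · rw [← hB] at hx
          rcases hx with hx | hx
          · right
            rw [← hCi]
            refine ⟨s1 hx, ?_⟩
            rw [← eO]
            exact ⟨hC1C (s1 hx), hxA⟩
          · exact Or.inl hx
        · exact Or.inr hx
      · rintro x (hx | hx)
        · left
          refine ⟨hB ▸ Or.inr hx, ?_⟩
          have : x ∈ C \ interior A := by rw [eO]; exact s2 hx
          exact this.2
        · exact Or.inr hx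
    rw [eB1, eB2, eA, eO]
    exact ⟨hC₁, hC₂⟩
  have hs1 : B₁ ⊆ C₁ := subset_union_left.trans hC₁.1
  have hs2 : B₂ ⊆ C₂ := subset_union_left.trans hC₂.1
  have hC1C : C₁ ⊆ C := hCu ▸ subset_union_left
  have hC2C : C₂ ⊆ C := hCu ▸ subset_union_right
  have p1 : IsPreconnected (C₁ \ (C ∩ frontier A)) :=
    preconn_between hC₁ (fun x hx => ⟨hx.1, fun h => hx.2 (Or.inr h)⟩) Set.sdiff_subset
  have p2 : IsPreconnected (C₂ \ (C ∩ frontier A)) :=
    preconn_between hC₂ (fun x hx => ⟨hx.1, fun h => hx.2 (Or.inr h)⟩) Set.sdiff_subset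
  have d1 : Disjoint (C₁ \ (C ∩ frontier A)) (frontier A) :=
    Set.disjoint_left.2 fun x hx h => hx.2 ⟨hC1C hx.1, h⟩
  have d2 : Disjoint (C₂ \ (C ∩ frontier A)) (frontier A) :=
    Set.disjoint_left.2 fun x hx h => hx.2 ⟨hC2C hx.1, h⟩
  have mem_cases : ∀ x ∈ C, x ∉ frontier A →
      x ∈ C₁ \ (C ∩ frontier A) ∨ x ∈ C₂ \ (C ∩ frontier A) := by
    intro x hx hf
    rw [← hCu] at hx
    rcases hx with hx | hx
    · exact Or.inl ⟨hx, fun h => hf h.2⟩
    · exact Or.inr ⟨hx, fun h => hf h.2⟩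
  obtain ⟨u, huC, huA⟩ := hin
  obtain ⟨w, hwC, hwA⟩ := hout
  have hu := mem_cases u huC (fun h => h.2 huA)
  have hw := mem_cases w hwC (fun h => hwA (hfA h))
  rcases in_or_out p1 d1 with i1 | i1
  · rcases in_or_out p2 d2 with i2 | i2
    · exfalso
      rcases hw with h | h
      · exact hwA (interior_subset (i1 h))
      · exact hwA (interior_subset (i2 h))
    · exact key B₁ B₂ C₁ C₂ hB hs1 hs2 hC₁ hC₂ hCu hCi i1 i2
  · rcases in_or_out p2 d2 with i2 | i2
    · exact key B₂ B₁ C₂ C₁ (by rw [union_comm]; exact hB) hs2 hs1 hC₂ hC₁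
        (by rw [union_comm]; exact hCu) (by rw [inter_comm]; exact hCi) i2 i1
    · exfalso
      rcases hu with h | h
      · exact Set.disjoint_left.1 i1 h (interior_subset huA)
      · exact Set.disjoint_left.1 i2 h (interior_subset huA)

end P073.GB200
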