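import Vale.Agent.P073.GB200.Basic

/-!
# P073, block GB3: a body whose boundary meets the faces in arcs cuts the complex (`DomCut`)
-/

set_option linter.unusedSectionVars false

open Set Metric Topology Filter

namespace P073.GB200

open P073 P073.PR720 P073.GB73 P073.GB932
open Vale.Agent.P073.St (V)

variable {Vx B J I : Type} {e0 e1 : B → Vx} {inc : B → J → Prop} {qC : J → I → Prop} {Ω : Set V}
  {K : Cx3 e0 e1 inc qC Ω} {P : Set B}

/-- the boundary of the body `S` meets the faces in arcs -/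
structure Arcs (K : Cx3 e0 e1 inc qC Ω) (S : Set V) (P : Set B) (q : B → V) : Prop where
  closed : IsClosed S
  cr : Crosses K.toGraph id S P q
  off_tile : ∀ j, {b | inc b j ∧ b ∈ P} = ∅ → Disjoint (K.tile j) (frontier S)
  arc : ∀ j b b', b ≠ b' → {b | inc b j ∧ b ∈ P} = {b, b'} →
    ConBall 1 (K.tile j ∩ frontier S) {q b, q b'}

theorem _root_.P073.GB73.DomCut.arcs {S : Set V} {q : B → V} (h : DomCut K S P q) :
    Arcs K S P q := ⟨h.ball.isClosed, h.crosses, h.off_tile, h.arc⟩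

theorem union_sdiff_eq {U γ : Set V} (h : ∀ z ∈ U, z ∉ γ) : (U ∪ γ) \ γ = U := by
  ext z
  constructor
  · rintro ⟨h1 | h1, h2⟩
    · exact h1
    · exact absurd h1 h2
  · intro hz; exact ⟨Or.inl hz, h z hz⟩

/-- a face meeting the frontier is crossed -/
theorem Arcs.crT {S : Set V} {q : B → V} (h : Arcs K S P q) {j : J} {z : V}
    (hz : z ∈ K.tile j) (hf : z ∈ frontier S) : CrT inc P j := by
  intro h'
  exact Set.disjoint_left.1 (h.off_tile j h') hz hf

theorem finite_crT (K : Cx3 e0 e1 inc qC Ω) (hP : P.Finite) : {j | CrT inc P j}.Finite := by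
  have h1 : ∀ b, {j | inc b j}.Finite := by
    intro b
    obtain ⟨U, hU, hf⟩ := Cx.lf_tile K (K.y (e0 b)) (Cx.arc_sub K b (Cx.vert0_mem K b))
    refine hf.subset fun j hj => ?_
    exact ⟨K.y (e0 b), K.toCx2.arc_subset_tile hj (Cx.vert0_mem K b), mem_of_mem_nhds hU⟩
  refine (hP.biUnion fun b _ => h1 b).subset ?_
  intro j hj
  obtain ⟨b, hb, hbP⟩ := nonempty_iff_ne_empty.2 hj
  exact mem_biUnion hbP hb

/-- the graph formed by the arcs in the crossed faces -/
def arcGraph {S : Set V} {q : B → V} (h : Arcs K S P q)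
    (f0 f1 : {j // CrT inc P j} → {b // b ∈ P}) (hne : ∀ j, f0 j ≠ f1 j)
    (hf : ∀ j : {j // CrT inc P j}, {b | inc b j.1 ∧ b ∈ P} = {(f0 j).1, (f1 j).1}) :
    Graph f0 f1 V where
  y := fun b => q b.1
  arc := fun j => K.tile j.1 ∩ frontier S
  ball := fun j => h.arc j.1 _ _ (fun h' => hne j (Subtype.ext h')) (hf j)
  inj := fun b b' hbb => Subtype.ext (Cr.q_inj h.cr h.closed b.2 b'.2 hbb)
  mem := by
    intro j b hb
    have h1 : b.1 ∈ {b | inc b j.1 ∧ b ∈ P} := ⟨Cr.q_inc h.cr h.closed b.2 hb.1, b.2⟩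
    rw [hf j] at h1
    rcases h1 with h1 | h1
    · exact Or.inl (Subtype.ext h1)
    · exact Or.inr (Subtype.ext h1)
  inter := by
    rintro j k hjk z ⟨⟨h1, h2⟩, h3, _⟩
    have hjk' : j.1 ≠ k.1 := fun h' => hjk (Subtype.ext h')
    obtain ⟨b, -, hb⟩ := (Cx.mem_bd K).1 (Cx.tile_tile' K hjk' h1 h3)
    obtain ⟨hbP, hz⟩ := Cr.eq_q h.cr hb h2
    exact ⟨⟨b, hbP⟩, hz.symm⟩

/-- the boundary curves of the discs in the cells correspond -/
theorem circle_transfer {R A : Set V} {p y : B → V} (hR : Arcs K R P p) (hA : Arcs K A P y)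
    (hpat : Pat inc P) (c : I) (hc : ConSphere 1 (⋃ j ∈ {j | qC j c}, K.tile j ∩ frontier R)) :
    ConSphere 1 (⋃ j ∈ {j | qC j c}, K.tile j ∩ frontier A) := by
  have htwo : ∀ j : {j // CrT inc P j}, ∃ b b' : {b // b ∈ P}, b ≠ b' ∧
      {b | inc b j.1 ∧ b ∈ P} = {b.1, b'.1} := by
    intro j
    obtain ⟨b, b', hbb, h⟩ := (hpat.two j.1).resolve_left j.2
    have h1 : b ∈ {b | inc b j.1 ∧ b ∈ P} := by rw [h]; exact Or.inl rfl
    have h2 : b' ∈ {b | inc b j.1 ∧ b ∈ P} := by rw [h]; exact Or.inr rfl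
    exact ⟨⟨b, h1.2⟩, ⟨b', h2.2⟩, fun h' => hbb (congrArg Subtype.val h'), h⟩
  choose f0 f1 hne hf using htwo
  have hfinJ : Finite {j // CrT inc P j} := finite_crT K hpat.fin
  have hfinP : Finite {b // b ∈ P} := hpat.fin
  have hLF : ∀ {S : Set V} {q : B → V} (h : Arcs K S P q),
      (arcGraph h f0 f1 hne hf).IsLF (arcGraph h f0 f1 hne hf).carrier := fun h =>
    ⟨fun z _ => ⟨univ, univ_mem, toFinite _⟩, fun z _ => ⟨univ, univ_mem, toFinite _⟩⟩
  obtain ⟨Φ, -, hΦ⟩ := (arcGraph hR f0 f1 hne hf).exists_iso (arcGraph hA f0 f1 hne hf)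
    (hLF hR) (hLF hA)
  have hcar : ∀ {S : Set V} {q : B → V} (h : Arcs K S P q),
      (⋃ j ∈ {j | qC j c}, K.tile j ∩ frontier S) =
        ⋃ j : {j : {j // CrT inc P j} // qC j.1 c}, (arcGraph h f0 f1 hne hf).arc j.1 := by
    intro S q h
    ext z
    simp only [mem_iUnion, exists_prop]
    constructor
    · rintro ⟨j, hj, hz, hf⟩
      exact ⟨⟨⟨j, h.crT hz hf⟩, hj⟩, hz, hf⟩
    · rintro ⟨j, hz, hf⟩
      exact ⟨j.1.1, j.2, hz, hf⟩
  have hcon : ConicalSet (⋃ j ∈ {j | qC j c}, K.tile j ∩ frontier R) := by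
    obtain ⟨ψ⟩ := hc
    exact ψ.conicalSet_left
  have hsub : (⋃ j ∈ {j | qC j c}, K.tile j ∩ frontier R) ⊆
      (arcGraph hR f0 f1 hne hf).carrier := by
    rw [hcar hR]
    exact iUnion_subset fun j => (subset_iUnion _ j.1).trans subset_union_right
  have himg : Φ.toFun '' (⋃ j ∈ {j | qC j c}, K.tile j ∩ frontier R) =
      ⋃ j ∈ {j | qC j c}, K.tile j ∩ frontier A := by
    rw [hcar hR, hcar hA, image_iUnion]
    exact iUnion_congr fun j => hΦ j.1
  obtain ⟨ψ⟩ := hc
  exact ⟨(((Φ.restr hcon hsub).cast rfl himg).symm).trans ψ⟩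

/-- **The body `A` cuts the complex.** -/
theorem domCut (hA3 : AmbStd 3) (hJ : JordanSch 2 (sphere (0 : Fin 3 → ℝ) 1)) (hΩ : IsOpen Ω)
    {A : Set V} {y : B → V} (hball : ConBall 3 A (frontier A)) (hsub : A ⊆ Ω) (hpat : Pat inc P)
    (hA : Arcs K A P y)
    (hcross : ∀ j c, qC j c → ∀ z ∈ (K.tile j \ K.toCx2.bd j) ∩ frontier A,
      z ∈ closure ((K.cell c \ ⋃ s, K.tile s) ∩ frontier A))
    (hcirc : ∀ c, CrC inc qC P c → ConSphere 1 (⋃ j ∈ {j | qC j c}, K.tile j ∩ frontier A)) :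
    DomCut K A P y := by
  have hcl := hA.closed
  have hfcl : IsClosed (frontier A) := isClosed_frontier
  have hsph : ConSphere 2 (frontier A) := hball.conSphere
  -- the open parts
  let O : I → Set V := fun c => (K.cell c \ ⋃ s, K.tile s) ∩ frontier A
  have hO : ∀ c, K.cell c ∩ frontier A = O c ∪ ⋃ j ∈ {j | qC j c}, K.tile j ∩ frontier A := by
    intro c
    ext z
    constructor
    · rintro ⟨hz, hf⟩
      by_cases ht : z ∈ ⋃ s, K.tile s
      · obtain ⟨s, hs⟩ := mem_iUnion.1 ht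
        obtain ⟨s', hs', hz'⟩ := Cx.cell_tile' K hz hs
        exact Or.inr (mem_iUnion₂.2 ⟨s', hs', hz', hf⟩)
      · exact Or.inl ⟨⟨hz, ht⟩, hf⟩
    · rintro (⟨⟨hz, -⟩, hf⟩ | hz)
      · exact ⟨hz, hf⟩
      · obtain ⟨s, hs, hz, hf⟩ := mem_iUnion₂.1 hz
        exact ⟨Cx.tile_sub_cell K hs hz, hf⟩
  have hOopen : ∀ c, ∃ U : Set V, IsOpen U ∧ O c = U ∩ frontier A := fun c =>
    ⟨_, Cx.isOpen_open_cell K hΩ c, rfl⟩
  have hOdis : ∀ c d, c ≠ d → Disjoint (O c) (O d) := by
    intro c d hcd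
    rw [Set.disjoint_left]
    rintro z ⟨⟨h1, h2⟩, -⟩ ⟨⟨h3, -⟩, -⟩
    exact h2 (K.cell_cell c d hcd ⟨h1, h3⟩)
  -- the open part of a cell is closed off the tiles
  have hOcl : ∀ c, ∀ z ∈ frontier A, z ∈ closure (O c) → z ∈ O c ∨
      z ∈ ⋃ j ∈ {j | qC j c}, K.tile j ∩ frontier A := by
    intro c z hz hzc
    have h1 : z ∈ K.cell c := (Cx.cell_closed K c).closure_subset_iff.2
      (fun w hw => hw.1.1) hzc
    have h2 : z ∈ K.cell c ∩ frontier A := ⟨h1, hz⟩
    rw [hO c] at h2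
    exact h2
  -- both cells at a crossed face meet the frontier in their interior
  have hOne : ∀ c, CrC inc qC P c → (O c).Nonempty := by
    rintro c ⟨j, hjc, hj⟩
    obtain ⟨b, b', hbb, h⟩ := (hpat.two j).resolve_left hj
    have harc := hA.arc j b b' hbb h
    obtain ⟨z, hz, hz1⟩ := PT.int_nonempty harc
    have hzb : z ∉ K.toCx2.bd j := by
      intro hb
      apply hz1
      rw [← Cr.bd_frontier hA.cr h]
      exact ⟨hb, hz.2⟩
    have := hcross j c hjc z ⟨⟨hz.1, hzb⟩, hz.2⟩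
    exact closure_nonempty_iff.1 ⟨z, this⟩
  -- the disc in a crossed cell
  have hdisc : ∀ c, CrC inc qC P c →
      ConBall 2 (K.cell c ∩ frontier A) (⋃ j ∈ {j | qC j c}, K.tile j ∩ frontier A) := by
    intro c hc
    obtain ⟨Ψ⟩ := hsph
    have hJA : JordanSch 2 (frontier A) := JordanSch.transport hJ Ψ.symm
    set γ := ⋃ j ∈ {j | qC j c}, K.tile j ∩ frontier A with hγ
    have hγA : γ ⊆ frontier A := by
      intro z hz
      obtain ⟨s, hs, hz, hf⟩ := mem_iUnion₂.1 hz
      exact hf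
    obtain ⟨U, W, hUW, hcov, hUne, hWne, hU, hW⟩ := hJA γ hγA (hcirc c hc)
    have hUA : ∀ z ∈ U, z ∈ frontier A ∧ z ∉ γ := fun z hz => by
      have : z ∈ U ∪ W := Or.inl hz
      rw [hcov] at this; exact this
    have hWA : ∀ z ∈ W, z ∈ frontier A ∧ z ∉ γ := fun z hz => by
      have : z ∈ U ∪ W := Or.inr hz
      rw [hcov] at this; exact this
    have hUp : IsPreconnected U := by
      have := PT.preconn_int hU
      rwa [union_sdiff_eq fun z hz => (hUA z hz).2] at this
    have hWp : IsPreconnected W := by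
      have := PT.preconn_int hW
      rwa [union_sdiff_eq fun z hz => (hWA z hz).2] at this
    -- a side is inside `O c` or disjoint from it
    have side : ∀ U : Set V, IsPreconnected U → (∀ z ∈ U, z ∈ frontier A ∧ z ∉ γ) →
        U ⊆ O c ∨ Disjoint U (O c) := by
      intro U hUp hUA
      obtain ⟨G, hG, hGe⟩ := hOopen c
      have hcov' : U ⊆ G ∪ (closure (O c))ᶜ := by
        intro z hz
        by_cases h : z ∈ closure (O c)
        · left
          rcases hOcl c z (hUA z hz).1 h with h' | h'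
          · rw [hGe] at h'; exact h'.1
          · exact absurd h' (hUA z hz).2
        · exact Or.inr h
      rcases (isPreconnected_iff_subset_of_disjoint.1 hUp) _ _ hG
        isClosed_closure.isOpen_compl hcov' (by
          rw [eq_empty_iff_forall_notMem]
          rintro z ⟨hz, hzG, hzc⟩
          apply hzc
          apply subset_closure
          rw [hGe]; exact ⟨hzG, (hUA z hz).1⟩) with h | h
      · left
        intro z hz
        rw [hGe]; exact ⟨h hz, (hUA z hz).1⟩
      · right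
        rw [Set.disjoint_left]
        exact fun z hz hzO => h hz (subset_closure hzO)
    -- another cell at the crossed face
    obtain ⟨d, hdc, hdO⟩ : ∃ d, d ≠ c ∧ (O d).Nonempty := by
      obtain ⟨j, hjc, hj⟩ := hc
      obtain ⟨c₁, d₁, hne, htw⟩ := K.two j
      rcases (htw c).1 hjc with h | h
      · exact ⟨d₁, by rw [h]; exact hne.symm, hOne d₁ ⟨j, (htw d₁).2 (Or.inr rfl), hj⟩⟩
      · exact ⟨c₁, by rw [h]; exact hne, hOne c₁ ⟨j, (htw c₁).2 (Or.inl rfl), hj⟩⟩
    have hOγ : ∀ c', ∀ z ∈ O c', z ∉ γ := by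
      intro c' z hz hzγ
      obtain ⟨s, -, hzs, -⟩ := mem_iUnion₂.1 hzγ
      exact hz.1.2 (mem_iUnion.2 ⟨s, hzs⟩)
    obtain ⟨w, hw⟩ := hdO
    obtain ⟨u, hu⟩ := hOne c hc
    have key : ∀ U W : Set V, U ∪ W = frontier A \ γ → (∀ z ∈ U, z ∈ frontier A ∧ z ∉ γ) →
        ConBall 2 (U ∪ γ) γ → U ⊆ O c → Disjoint W (O c) →
        ConBall 2 (K.cell c ∩ frontier A) γ := by
      intro U W hcov hUA hU h1 h2
      have : K.cell c ∩ frontier A = U ∪ γ := by
        rw [hO c]
        congr 1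
        apply Subset.antisymm _ h1
        intro z hz
        have hz' : z ∈ U ∪ W := by rw [hcov]; exact ⟨hz.2, hOγ c z hz⟩
        exact hz'.resolve_right fun h => Set.disjoint_left.1 h2 h hz
      rw [this]; exact hU
    have hwm : w ∈ U ∪ W := by rw [hcov]; exact ⟨hw.2, hOγ d w hw⟩
    have hum : u ∈ U ∪ W := by rw [hcov]; exact ⟨hu.2, hOγ c u hu⟩
    have hwc : w ∉ O c := fun h => Set.disjoint_left.1 (hOdis d c hdc) hw h
    rcases side U hUp hUA with h1 | h1
    · rcases side W hWp hWA with h2 | h2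
      · exfalso
        rcases hwm with h | h
        · exact hwc (h1 h)
        · exact hwc (h2 h)
      · exact key U W hcov hUA hU h1 h2
    · rcases side W hWp hWA with h2 | h2
      · exact key W U (by rw [union_comm]; exact hcov) hWA hW h2 h1
      · exfalso
        rcases hum with h | h
        · exact Set.disjoint_left.1 h1 h hu
        · exact Set.disjoint_left.1 h2 h hu
  -- crossed faces
  have hface : ∀ j, {b | inc b j ∧ b ∈ P} ≠ ∅ →
      ConBall 2 (K.tile j ∩ A) ((K.toCx2.bd j ∩ A) ∪ (K.tile j ∩ frontier A)) ∧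
      ConBall 2 (K.tile j \ interior A)
        ((K.toCx2.bd j \ interior A) ∪ (K.tile j ∩ frontier A)) := by
    intro j hj
    obtain ⟨b, b', hbb, h⟩ := (hpat.two j).resolve_left hj
    have harc := hA.arc j b b' hbb h
    rw [← Cr.bd_frontier hA.cr h] at harc
    obtain ⟨⟨u, hu1, hu2⟩, ⟨w, hw1, hw2⟩⟩ := Cr.meets hA.cr hj
    exact inOut_two (K.tball j) hcl harc ⟨u, K.toCx2.bd_subset j hu1, hu2⟩
      ⟨w, K.toCx2.bd_subset j hw1, hw2⟩
  have hcell : ∀ c, CrC inc qC P c →
      ConBall 3 (K.cell c ∩ A)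
        (((⋃ s ∈ {s | qC s c}, K.tile s) ∩ A) ∪ (K.cell c ∩ frontier A)) ∧
      ConBall 3 (K.cell c \ interior A)
        (((⋃ s ∈ {s | qC s c}, K.tile s) \ interior A) ∪ (K.cell c ∩ frontier A)) := by
    intro c hc
    have hd := hdisc c hc
    obtain ⟨j, hjc, hj⟩ := hc
    obtain ⟨⟨u, hu1, hu2⟩, ⟨w, hw1, hw2⟩⟩ := Cr.meets hA.cr hj
    refine inOut_three hA3 hJ (K.cball c) hcl ?_
      ⟨u, Cx.tile_sub_cell K hjc (K.toCx2.bd_subset j hu1), hu2⟩
      ⟨w, Cx.tile_sub_cell K hjc (K.toCx2.bd_subset j hw1), hw2⟩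
    have : (⋃ s ∈ {s | qC s c}, K.tile s) ∩ frontier A =
        ⋃ j ∈ {j | qC j c}, K.tile j ∩ frontier A := by
      rw [iUnion₂_inter]
    rw [this]; exact hd
  refine
    { ball := hball
      sub := hsub
      crosses := hA.cr
      off_tile := hA.off_tile
      arc := hA.arc
      tile_in := fun j hj => (hface j hj).1
      tile_out := fun j hj => (hface j hj).2
      off_cell := ?_
      disc := hdisc
      cell_in := ?_
      cell_out := ?_ }
  · -- cells without crossed faces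
    intro c hc
    have hγ0 : (⋃ j ∈ {j | qC j c}, K.tile j ∩ frontier A) = ∅ := by
      rw [eq_empty_iff_forall_notMem]
      intro z hz
      obtain ⟨s, hs, hz, hf⟩ := mem_iUnion₂.1 hz
      exact Set.disjoint_left.1 (hA.off_tile s (hc s hs)) hz hf
    have hOe : K.cell c ∩ frontier A = O c := by rw [hO c, hγ0, union_empty]
    rw [Set.disjoint_iff_inter_eq_empty, hOe]
    by_contra hne
    obtain ⟨u, hu⟩ := nonempty_iff_ne_empty.2 hne
    have hfp : IsPreconnected (frontier A) := by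
      obtain ⟨Ψ⟩ := hsph
      rw [← Ψ.symm.image_eq]
      refine (isPreconnected_sphere ?_ 0 1).image _ Ψ.symm.cont
      rw [rank_fun', Fintype.card_fin]
      norm_num
    obtain ⟨G, hG, hGe⟩ := hOopen c
    have hsubO : frontier A ⊆ O c := by
      have hcov' : frontier A ⊆ G ∪ (closure (O c))ᶜ := by
        intro z hz
        by_cases h : z ∈ closure (O c)
        · left
          rcases hOcl c z hz h with h' | h'
          · rw [hGe] at h'; exact h'.1
          · rw [hγ0] at h'; exact absurd h' (notMem_empty z)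
        · exact Or.inr h
      rcases (isPreconnected_iff_subset_of_disjoint.1 hfp) _ _ hG
        isClosed_closure.isOpen_compl hcov' (by
          rw [eq_empty_iff_forall_notMem]
          rintro z ⟨hz, hzG, hzc⟩
          apply hzc
          apply subset_closure
          rw [hGe]; exact ⟨hzG, hz⟩) with h | h
      · intro z hz
        rw [hGe]; exact ⟨h hz, hz⟩
      · exact absurd (subset_closure hu) (h hu.2)
    obtain ⟨b, hb⟩ := hpat.ne
    have h1 := hsubO (Cr.q_fr hA.cr hb)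
    obtain ⟨j, hj⟩ := K.arc_tile b
    exact h1.1.2 (mem_iUnion.2 ⟨j, K.toCx2.arc_subset_tile hj (Cr.q_arc hA.cr hb)⟩)
  · intro c hc
    have := (hcell c hc).1
    rwa [iUnion₂_inter] at this
  · intro c hc
    have := (hcell c hc).2
    rwa [show ((⋃ s ∈ {s | qC s c}, K.tile s) \ interior A) =
      ⋃ j ∈ {j | qC j c}, K.tile j \ interior A from by
        simp only [Set.sdiff_eq, iUnion₂_inter]] at this

end P073.GB200
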