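import Vale.Agent.P073.GB200.SpecCut

/-!
# P073, block GB3: the Prop `SpecCut` of `GB73/Spec.lean`
-/

open Set Metric Topology Filter

namespace P073.GB200

open P073 P073.GB73 P073.GB932

/-- **(GB3)** the exact Prop of `GB73/Spec.lean` -/
theorem specCut_exact (hA3 : AmbStd 3) (hJ : JordanSch 2 (sphere (0 : Fin 3 → ℝ) 1)) :
    P073.GB73.SpecCut :=
  fun _ _ _ _ _ _ _ _ _ _ K h' hΩ hΛ A0 P y R p _ _ _ _ hsub hball hpat hcr hR hoff harc hcross hv
    χ h0 h1 hid hon => specCut_aux hA3 hJ K h' hΩ hΛ A0 P y R p hball hsub hpat hcr hR hoff harc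
      hcross hv χ h0 h1 hid hon

end P073.GB200
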