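import Vale.Agent.P073.PR.Hemi

/-!
# P073, GB rank 2: flattening of the sphere towards an equator

`flat k η : ConHomeo S2 S2` fixes the equator `x k = 0` and squeezes the side faces of the cube
into the band `|x k| ≤ η`.
-/

open Set Metric Topology Filter

namespace P073.GB200

open P073

/-- conical and continuous real valued functions -/
structure CC {E : Type*} [NormedAddCommGroup E] [NormedSpace ℝ E] (a : E → ℝ) (X : Set E) :
    Prop where
  con : ConicalOn a X
  cont : ContinuousOn a X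

namespace CC

variable {E : Type*} [NormedAddCommGroup E] [NormedSpace ℝ E] {a b : E → ℝ} {X : Set E}

theorem const (c : ℝ) (hX : ConicalSet X) : CC (fun _ : E => c) X :=
  ⟨conicalOn_const c hX, continuousOn_const⟩

theorem add (ha : CC a X) (hb : CC b X) : CC (fun x => a x + b x) X :=
  ⟨ha.con.add hb.con, ha.cont.add hb.cont⟩

theorem sub (ha : CC a X) (hb : CC b X) : CC (fun x => a x - b x) X :=
  ⟨ha.con.sub hb.con, ha.cont.sub hb.cont⟩

theorem neg (ha : CC a X) : CC (fun x => - a x) X :=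
  ⟨ha.con.neg, ha.cont.neg⟩

theorem mul (c : ℝ) (ha : CC a X) : CC (fun x => c * a x) X :=
  ⟨ha.con.const_smul c, continuousOn_const.mul ha.cont⟩

theorem max (ha : CC a X) (hb : CC b X) : CC (fun x => max (a x) (b x)) X :=
  ⟨ha.con.rmax hb.con ha.cont hb.cont, fun x hx => (ha.cont x hx).max (hb.cont x hx)⟩

theorem min (ha : CC a X) (hb : CC b X) : CC (fun x => min (a x) (b x)) X :=
  ⟨ha.con.rmin hb.con ha.cont hb.cont, fun x hx => (ha.cont x hx).min (hb.cont x hx)⟩

theorem abs (ha : CC a X) : CC (fun x => |a x|) X :=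
  ⟨ha.con.rabs ha.cont, ha.cont.abs⟩

theorem coord {X : Set (Fin 3 → ℝ)} (hX : ConicalSet X) (i : Fin 3) :
    CC (fun x : Fin 3 → ℝ => x i) X :=
  ⟨conicalOn_coord hX i, (continuous_apply i).continuousOn⟩

end CC

/-! ### one coordinate -/

/-- forward map of a horizontal coordinate -/
noncomputable def ff (η s u : ℝ) : ℝ :=
  u + (max 0 (1 / (1 - 2 * η) * (s - 2 * η * (1 - u))) -
    max 0 (1 / (1 - 2 * η) * (s - 2 * η * (1 + u))))

/-- backward map of a horizontal coordinate -/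
noncomputable def gg (η s u : ℝ) : ℝ :=
  u + (max 0 (s - 2 * η * (1 + u)) - max 0 (s - 2 * η * (1 - u)))

theorem ff_neg (η s u : ℝ) : ff η s (-u) = -ff η s u := by
  unfold ff
  rw [sub_neg_eq_add, ← sub_eq_add_neg]
  ring

theorem gg_neg (η s u : ℝ) : gg η s (-u) = -gg η s u := by
  unfold gg
  rw [sub_neg_eq_add, ← sub_eq_add_neg]
  ring

variable {η s u : ℝ}

theorem ff_zero (hη : 0 < η) (hη' : η < 1 / 4) (hu : |u| ≤ 1) : ff η 0 u = u := by
  have h := abs_le.1 hu
  have h0 : 0 < 1 - 2 * η := by linarith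
  unfold ff
  rw [max_eq_left, max_eq_left]
  · ring
  · apply mul_nonpos_of_nonneg_of_nonpos (by positivity)
    nlinarith
  · apply mul_nonpos_of_nonneg_of_nonpos (by positivity)
    nlinarith

theorem gg_zero (hη : 0 < η) (hu : |u| ≤ 1) : gg η 0 u = u := by
  have h := abs_le.1 hu
  unfold gg
  rw [max_eq_left, max_eq_left]
  · ring
  · nlinarith
  · nlinarith

/-- formulas for nonnegative `u` -/
theorem ff_of_nonneg (hη : 0 < η) (hη' : η < 1 / 4) (hs : s ≤ η) (hu : 0 ≤ u) :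
    ff η s u = u + max 0 (1 / (1 - 2 * η) * (s - 2 * η * (1 - u))) := by
  have h0 : 0 < 1 - 2 * η := by linarith
  unfold ff
  rw [max_eq_left (b := 1 / (1 - 2 * η) * (s - 2 * η * (1 + u)))]
  · ring
  · apply mul_nonpos_of_nonneg_of_nonpos (by positivity)
    nlinarith

theorem gg_of_nonneg (hη : 0 < η) (hs : s ≤ η) (hu : 0 ≤ u) :
    gg η s u = u - max 0 (s - 2 * η * (1 - u)) := by
  unfold gg
  rw [max_eq_left (b := s - 2 * η * (1 + u))]
  · ring
  · nlinarith

theorem gg_ff_nonneg (hη : 0 < η) (hη' : η < 1 / 4) (hs : s ≤ η) (hu : 0 ≤ u) :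
    gg η s (ff η s u) = u := by
  have h0 : 0 < 1 - 2 * η := by linarith
  rw [ff_of_nonneg hη hη' hs hu]
  have h1 : 0 ≤ max 0 (1 / (1 - 2 * η) * (s - 2 * η * (1 - u))) := le_max_left _ _
  rw [gg_of_nonneg hη hs (by linarith)]
  rcases le_total (s - 2 * η * (1 - u)) 0 with h | h
  · rw [max_eq_left (b := 1 / (1 - 2 * η) * (s - 2 * η * (1 - u)))
      (mul_nonpos_of_nonneg_of_nonpos (by positivity) h), max_eq_left (by linarith)]
    ring
  · have h2 : 0 ≤ 1 / (1 - 2 * η) * (s - 2 * η * (1 - u)) := mul_nonneg (by positivity) h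
    rw [max_eq_right h2]
    set a := 1 / (1 - 2 * η) * (s - 2 * η * (1 - u)) with ha
    have h3 : (1 - 2 * η) * a = s - 2 * η * (1 - u) := by
      rw [ha]; field_simp
    have h4 : s - 2 * η * (1 - (u + a)) = a := by linarith
    rw [h4, max_eq_right h2]
    ring

theorem gg_nonneg (hη : 0 < η) (hη' : η < 1 / 4) (hs : s ≤ η) (hu : 0 ≤ u) (_ : u ≤ 1) :
    0 ≤ gg η s u := by
  rw [gg_of_nonneg hη hs hu]
  rcases le_total (s - 2 * η * (1 - u)) 0 with h | h
  · rw [max_eq_left h]; linarith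
  · rw [max_eq_right h]
    nlinarith

theorem ff_gg_nonneg (hη : 0 < η) (hη' : η < 1 / 4) (hs : s ≤ η) (hu : 0 ≤ u) (hu1 : u ≤ 1) :
    ff η s (gg η s u) = u := by
  have h0 : 0 < 1 - 2 * η := by linarith
  have h5 := gg_nonneg hη hη' hs hu hu1
  rw [ff_of_nonneg hη hη' hs h5, gg_of_nonneg hη hs hu]
  rcases le_total (s - 2 * η * (1 - u)) 0 with h | h
  · rw [max_eq_left h, sub_zero,
      max_eq_left (mul_nonpos_of_nonneg_of_nonpos (by positivity) h)]
    ring
  · rw [max_eq_right h]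
    set a := s - 2 * η * (1 - u) with ha
    have h3 : 1 / (1 - 2 * η) * (s - 2 * η * (1 - (u - a))) = a := by
      have : s - 2 * η * (1 - (u - a)) = (1 - 2 * η) * a := by rw [ha]; ring
      rw [this]; field_simp
    rw [h3, max_eq_right h]
    ring

theorem ff_le_nonneg (hη : 0 < η) (hη' : η < 1 / 4) (hs : s ≤ η) (hu : 0 ≤ u)
    (hs0 : 0 ≤ s) (hu1 : u ≤ 1 - s) : 0 ≤ ff η s u ∧ ff η s u ≤ 1 := by
  have h0 : 0 < 1 - 2 * η := by linarith
  rw [ff_of_nonneg hη hη' hs hu]
  refine ⟨by positivity, ?_⟩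
  rcases le_total (s - 2 * η * (1 - u)) 0 with h | h
  · rw [max_eq_left (mul_nonpos_of_nonneg_of_nonpos (by positivity) h)]; linarith
  · have h2 : 0 ≤ 1 / (1 - 2 * η) * (s - 2 * η * (1 - u)) := mul_nonneg (by positivity) h
    rw [max_eq_right h2, div_mul_eq_mul_div, one_mul, ← le_sub_iff_add_le', div_le_iff₀ h0]
    nlinarith

theorem ff_edge (hη : 0 < η) (hη' : η < 1 / 4) (hs0 : 0 ≤ s) (hs : s ≤ η) :
    ff η s (1 - s) = 1 := by
  have h0 : 0 < 1 - 2 * η := by linarith
  rw [ff_of_nonneg hη hη' hs (by linarith)]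
  have h1 : 1 / (1 - 2 * η) * (s - 2 * η * (1 - (1 - s))) = s := by
    have : s - 2 * η * (1 - (1 - s)) = (1 - 2 * η) * s := by ring
    rw [this]; field_simp
  rw [h1, max_eq_right hs0]
  ring

theorem gg_edge (hη : 0 < η) (hs0 : 0 ≤ s) (hs : s ≤ η) : gg η s 1 = 1 - s := by
  rw [gg_of_nonneg hη hs zero_le_one]
  have h1 : s - 2 * η * (1 - 1) = s := by ring
  rw [h1, max_eq_right hs0]

theorem gg_le_nonneg (hη : 0 < η) (hη' : η < 1 / 4) (hs : s ≤ η) (hu : 0 ≤ u) (hu1 : u ≤ 1) :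
    gg η s u ≤ 1 - s ∨ s < 0 := by
  by_cases hs0 : s < 0
  · exact Or.inr hs0
  push Not at hs0
  left
  rw [gg_of_nonneg hη hs hu]
  rcases le_total (s - 2 * η * (1 - u)) 0 with h | h
  · rw [max_eq_left h]
    nlinarith
  · rw [max_eq_right h]
    nlinarith

theorem sign_cases {P : ℝ → Prop} (h : ∀ u, 0 ≤ u → P u) (hn : ∀ u, P u → P (-u)) (u : ℝ) :
    P u := by
  rcases le_total 0 u with hu | hu
  · exact h u hu
  · have := hn _ (h (-u) (by linarith))
    rwa [neg_neg] at this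

theorem gg_ff (hη : 0 < η) (hη' : η < 1 / 4) (hs : s ≤ η) (u : ℝ) : gg η s (ff η s u) = u := by
  refine sign_cases (P := fun u => gg η s (ff η s u) = u) (fun u hu => gg_ff_nonneg hη hη' hs hu)
    (fun u hu => ?_) u
  rw [ff_neg, gg_neg, hu]

theorem ff_gg (hη : 0 < η) (hη' : η < 1 / 4) (hs : s ≤ η) (hu : |u| ≤ 1) :
    ff η s (gg η s u) = u := by
  refine sign_cases (P := fun u => |u| ≤ 1 → ff η s (gg η s u) = u)
    (fun u hu h1 => ff_gg_nonneg hη hη' hs hu (abs_le.1 h1).2) (fun u hu h1 => ?_) u hu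
  rw [gg_neg, ff_neg, hu (by rwa [abs_neg] at h1)]

theorem abs_ff_le (hη : 0 < η) (hη' : η < 1 / 4) (hs0 : 0 ≤ s) (hs : s ≤ η) (hu : |u| ≤ 1 - s) :
    |ff η s u| ≤ 1 := by
  refine sign_cases (P := fun u => |u| ≤ 1 - s → |ff η s u| ≤ 1)
    (fun u hu h1 => ?_) (fun u hu h1 => ?_) u hu
  · have := ff_le_nonneg hη hη' hs hu hs0 (abs_le.1 h1).2
    rw [abs_of_nonneg this.1]; exact this.2
  · rw [ff_neg, abs_neg]
    exact hu (by rwa [abs_neg] at h1)

theorem abs_ff_edge (hη : 0 < η) (hη' : η < 1 / 4) (hs0 : 0 ≤ s) (hs : s ≤ η)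
    (hu : |u| = 1 - s) : |ff η s u| = 1 := by
  refine sign_cases (P := fun u => |u| = 1 - s → |ff η s u| = 1)
    (fun u hu h1 => ?_) (fun u hu h1 => ?_) u hu
  · rw [abs_of_nonneg hu] at h1
    rw [h1, ff_edge hη hη' hs0 hs, abs_one]
  · rw [ff_neg, abs_neg]
    exact hu (by rwa [abs_neg] at h1)

theorem abs_gg_le (hη : 0 < η) (hη' : η < 1 / 4) (hs0 : 0 ≤ s) (hs : s ≤ η) (hu : |u| ≤ 1) :
    |gg η s u| ≤ 1 - s := by
  refine sign_cases (P := fun u => |u| ≤ 1 → |gg η s u| ≤ 1 - s)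
    (fun u hu h1 => ?_) (fun u hu h1 => ?_) u hu
  · have h2 := (abs_le.1 h1).2
    rw [abs_of_nonneg (gg_nonneg hη hη' hs hu h2)]
    exact (gg_le_nonneg hη hη' hs hu h2).resolve_right (by linarith)
  · rw [gg_neg, abs_neg]
    exact hu (by rwa [abs_neg] at h1)

theorem abs_gg_edge (hη : 0 < η) (hs0 : 0 ≤ s) (hs : s ≤ η) (hη' : η < 1 / 4)
    (hu : |u| = 1) : |gg η s u| = 1 - s := by
  refine sign_cases (P := fun u => |u| = 1 → |gg η s u| = 1 - s)
    (fun u hu h1 => ?_) (fun u hu h1 => ?_) u hu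
  · rw [abs_of_nonneg hu] at h1
    rw [h1, gg_edge hη hs0 hs, abs_of_nonneg (by linarith)]
  · rw [gg_neg, abs_neg]
    exact hu (by rwa [abs_neg] at h1)

theorem ff_close (hη : 0 < η) (hη' : η < 1 / 4) (hs0 : 0 ≤ s) (hs : s ≤ η) (hu : |u| ≤ 1) :
    |ff η s u - u| ≤ 2 * s := by
  refine sign_cases (P := fun u => |u| ≤ 1 → |ff η s u - u| ≤ 2 * s)
    (fun u hu h1 => ?_) (fun u hu h1 => ?_) u hu
  · have h0 : 0 < 1 - 2 * η := by linarith
    have h2 := (abs_le.1 h1).2
    rw [ff_of_nonneg hη hη' hs hu, add_sub_cancel_left, abs_of_nonneg (le_max_left _ _)]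
    refine max_le (by linarith) ?_
    rw [div_mul_eq_mul_div, one_mul, div_le_iff₀ h0]
    nlinarith
  · rw [ff_neg, ← neg_add', abs_neg]
    simpa [sub_eq_add_neg] using hu (by rwa [abs_neg] at h1)

/-! ### the sphere -/

theorem mem_S2 {x : Fin 3 → ℝ} : x ∈ sphere (0 : Fin 3 → ℝ) 1 ↔ (∀ i, |x i| ≤ 1) ∧ ∃ i, |x i| = 1 := by
  rw [mem_sphere_fin3]
  constructor
  · rintro ⟨h0, h1, h2, h⟩
    refine ⟨fun i => ?_, ?_⟩
    · fin_cases i
      · exact h0
      · exact h1
      · exact h2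
    · rcases h with h | h | h
      · exact ⟨0, h⟩
      · exact ⟨1, h⟩
      · exact ⟨2, h⟩
  · rintro ⟨h, i, hi⟩
    refine ⟨h 0, h 1, h 2, ?_⟩
    fin_cases i
    · exact Or.inl hi
    · exact Or.inr (Or.inl hi)
    · exact Or.inr (Or.inr hi)

theorem fin3_ne {k i : Fin 3} (h : i ≠ k) : i = k + 1 ∨ i = k + 2 := by
  revert k i; decide

theorem fin3_ne1 (k : Fin 3) : k + 1 ≠ k := by revert k; decide

theorem fin3_ne2 (k : Fin 3) : k + 2 ≠ k := by revert k; decide

/-- horizontal norm -/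
noncomputable def hN (k : Fin 3) (x : Fin 3 → ℝ) : ℝ := max |x (k + 1)| |x (k + 2)|

theorem le_hN {k i : Fin 3} (h : i ≠ k) (x : Fin 3 → ℝ) : |x i| ≤ hN k x := by
  rcases fin3_ne h with rfl | rfl
  · exact le_max_left _ _
  · exact le_max_right _ _

theorem hN_le {k : Fin 3} {x : Fin 3 → ℝ} {c : ℝ} (h : ∀ i, i ≠ k → |x i| ≤ c) : hN k x ≤ c :=
  max_le (h _ (fin3_ne1 k)) (h _ (fin3_ne2 k))

theorem hN_eq (k : Fin 3) (x : Fin 3 → ℝ) : ∃ i, i ≠ k ∧ |x i| = hN k x := by
  rcases max_choice |x (k + 1)| |x (k + 2)| with h | h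
  · exact ⟨_, fin3_ne1 k, h.symm⟩
  · exact ⟨_, fin3_ne2 k, h.symm⟩

theorem hN_nonneg (k : Fin 3) (x : Fin 3 → ℝ) : 0 ≤ hN k x := (abs_nonneg _).trans (le_max_left _ _)

/-- the defect of the forward map -/
noncomputable def sF (k : Fin 3) (η : ℝ) (x : Fin 3 → ℝ) : ℝ := min η (1 - hN k x)

/-- the defect of the backward map -/
noncomputable def sG (k : Fin 3) (η : ℝ) (y : Fin 3 → ℝ) : ℝ := η / (1 - η) * max 0 (|y k| - η)

/-- the forward map -/
noncomputable def flatF (k : Fin 3) (η : ℝ) (x : Fin 3 → ℝ) : Fin 3 → ℝ := fun i =>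
  if i = k then η * x k + max (-((1 - η) / η * sF k η x)) (min ((1 - η) / η * sF k η x) (x k))
  else ff η (sF k η x) (x i)

/-- the backward map -/
noncomputable def flatG (k : Fin 3) (η : ℝ) (y : Fin 3 → ℝ) : Fin 3 → ℝ := fun i =>
  if i = k then max (-1) (min 1 (1 / η * y k)) else gg η (sG k η y) (y i)

theorem flatF_k (k : Fin 3) (η : ℝ) (x : Fin 3 → ℝ) : flatF k η x k =
    η * x k + max (-((1 - η) / η * sF k η x)) (min ((1 - η) / η * sF k η x) (x k)) := if_pos rfl

theorem flatF_ne {k i : Fin 3} (h : i ≠ k) (η : ℝ) (x : Fin 3 → ℝ) :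
    flatF k η x i = ff η (sF k η x) (x i) := if_neg h

theorem flatG_k (k : Fin 3) (η : ℝ) (y : Fin 3 → ℝ) :
    flatG k η y k = max (-1) (min 1 (1 / η * y k)) := if_pos rfl

theorem flatG_ne {k i : Fin 3} (h : i ≠ k) (η : ℝ) (y : Fin 3 → ℝ) :
    flatG k η y i = gg η (sG k η y) (y i) := if_neg h

section

variable {k : Fin 3} {x y : Fin 3 → ℝ}

theorem CC.hN {X : Set (Fin 3 → ℝ)} (hX : ConicalSet X) (k : Fin 3) : CC (hN k) X :=
  ((CC.coord hX (k + 1)).abs).max ((CC.coord hX (k + 2)).abs)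

theorem CC.ff {X : Set (Fin 3 → ℝ)} (hX : ConicalSet X) {a b : (Fin 3 → ℝ) → ℝ} (ha : CC a X)
    (hb : CC b X) (η : ℝ) : CC (fun x => ff η (a x) (b x)) X := by
  refine hb.add (((CC.const 0 hX).max ((ha.sub ?_).mul _)).sub ((CC.const 0 hX).max
    ((ha.sub ?_).mul _)))
  · exact ((CC.const 1 hX).sub hb).mul (2 * η)
  · exact ((CC.const 1 hX).add hb).mul (2 * η)

theorem CC.flatF {X : Set (Fin 3 → ℝ)} (hX : ConicalSet X) (k : Fin 3) (η : ℝ) (i : Fin 3) :
    CC (fun x => flatF k η x i) X := by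
  have hs : CC (sF k η) X := (CC.const η hX).min ((CC.const 1 hX).sub (CC.hN hX k))
  unfold GB200.flatF
  by_cases h : i = k
  · simp only [h, if_true]
    exact ((CC.coord hX k).mul η).add ((hs.mul _).neg.max ((hs.mul _).min (CC.coord hX k)))
  · simp only [h, if_false]
    exact CC.ff hX hs (CC.coord hX i) η

theorem continuous_flatG (k : Fin 3) (η : ℝ) : Continuous (flatG k η) := by
  refine continuous_pi fun i => ?_
  unfold flatG sG gg
  by_cases h : i = k
  · simp only [h, if_true]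
    fun_prop
  · simp only [h, if_false]
    fun_prop

theorem sF_side (hη : 0 < η) (h : hN k x = 1) : sF k η x = 0 := by
  unfold sF; rw [h, sub_self]; exact min_eq_right hη.le

theorem sF_nonneg (hη : 0 < η) (hx : x ∈ sphere (0 : Fin 3 → ℝ) 1) : 0 ≤ sF k η x := by
  refine le_min hη.le ?_
  have := hN_le (k := k) fun i _ => (mem_S2.1 hx).1 i
  linarith

theorem sF_le : sF k η x ≤ η := min_le_left _ _

theorem le_sF (i : Fin 3) (hi : i ≠ k) : |x i| ≤ 1 - sF k η x := by
  have h1 : sF k η x ≤ 1 - hN k x := min_le_right _ _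
  have h2 := le_hN hi x
  linarith

theorem sG_nonneg (hη : 0 < η) (hη' : η < 1 / 4) : 0 ≤ sG k η y :=
  mul_nonneg (div_nonneg hη.le (by linarith)) (le_max_left _ _)

theorem sG_le (hη : 0 < η) (hη' : η < 1 / 4) (hy : |y k| ≤ 1) : sG k η y ≤ η := by
  have h0 : 0 < 1 - η := by linarith
  have : max 0 (|y k| - η) ≤ 1 - η := max_le h0.le (by linarith)
  calc sG k η y ≤ η / (1 - η) * (1 - η) :=
        mul_le_mul_of_nonneg_left this (div_nonneg hη.le h0.le)
    _ = η := by field_simp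

/-- value of the clamp -/
theorem clamp_eq {c t : ℝ} (hc0 : 0 ≤ c) (hc1 : c ≤ 1) (ht : |t| = 1) :
    max (-c) (min c t) = t * c := by
  rcases (abs_eq zero_le_one).1 ht with rfl | rfl
  · rw [min_eq_left hc1, max_eq_right (by linarith)]; ring
  · rw [min_eq_right (by linarith), max_eq_left (by linarith)]; ring

theorem coef_mul (hη : 0 < η) (hη' : η < 1 / 4) {s : ℝ} (hs0 : 0 ≤ s) (hs : s ≤ η) :
    0 ≤ (1 - η) / η * s ∧ (1 - η) / η * s ≤ 1 - η := by
  have h0 : 0 < 1 - η := by linarith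
  refine ⟨by positivity, ?_⟩
  rw [div_mul_eq_mul_div, div_le_iff₀ hη]
  nlinarith

/-- on the top and bottom faces -/
theorem flatF_top (hη : 0 < η) (hη' : η < 1 / 4) (hx : x ∈ sphere (0 : Fin 3 → ℝ) 1)
    (hk : |x k| = 1) : flatF k η x k = x k * (η + (1 - η) / η * sF k η x) := by
  have h := coef_mul hη hη' (sF_nonneg (k := k) hη hx) sF_le
  rw [flatF_k, clamp_eq h.1 (by linarith) hk]
  ring

/-- on the side faces -/
theorem flatF_side (hη : 0 < η) (hη' : η < 1 / 4) (hx : x ∈ sphere (0 : Fin 3 → ℝ) 1)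
    (hk : hN k x = 1) : flatF k η x k = η * x k ∧ ∀ i, i ≠ k → flatF k η x i = x i := by
  have hs := sF_side (k := k) hη hk
  refine ⟨?_, fun i hi => ?_⟩
  · rw [flatF_k, hs, mul_zero, neg_zero]
    rcases le_total 0 (x k) with h | h
    · rw [min_eq_left h, max_self, add_zero]
    · rw [min_eq_right h, max_eq_left h, add_zero]
  · rw [flatF_ne hi, hs, ff_zero hη hη' ((mem_S2.1 hx).1 i)]

theorem top_or_side (hx : x ∈ sphere (0 : Fin 3 → ℝ) 1) : |x k| = 1 ∨ hN k x = 1 := by
  obtain ⟨h1, i, hi⟩ := mem_S2.1 hx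
  by_cases hik : i = k
  · left; rw [← hik]; exact hi
  · right
    exact le_antisymm (hN_le fun i _ => h1 i) (hi ▸ le_hN hik x)

theorem flatF_mem (hη : 0 < η) (hη' : η < 1 / 4) (hx : x ∈ sphere (0 : Fin 3 → ℝ) 1) :
    flatF k η x ∈ sphere (0 : Fin 3 → ℝ) 1 := by
  have hx' := mem_S2.1 hx
  rcases top_or_side (k := k) hx with hk | hk
  · have hs0 := sF_nonneg (k := k) hη hx
    have hs : sF k η x ≤ η := sF_le
    have h := coef_mul hη hη' hs0 hs
    have hkk := flatF_top hη hη' hx hk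
    have habs : |flatF k η x k| = η + (1 - η) / η * sF k η x := by
      rw [hkk, abs_mul, hk, one_mul, abs_of_nonneg (by linarith [h.1])]
    refine mem_S2.2 ⟨fun i => ?_, ?_⟩
    · by_cases hi : i = k
      · rw [hi, habs]; linarith [h.2]
      · rw [flatF_ne hi]
        exact abs_ff_le hη hη' hs0 hs (le_sF i hi)
    · rcases min_choice η (1 - hN k x) with hm | hm
      · refine ⟨k, ?_⟩
        have : sF k η x = η := hm
        rw [habs, this]; field_simp; ring
      · obtain ⟨i, hi, hi'⟩ := hN_eq k x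
        refine ⟨i, ?_⟩
        have hm' : sF k η x = 1 - hN k x := hm
        rw [flatF_ne hi]
        exact abs_ff_edge hη hη' hs0 hs (by rw [hi', hm']; ring)
  · obtain ⟨h1, h2⟩ := flatF_side hη hη' hx hk
    refine mem_S2.2 ⟨fun i => ?_, ?_⟩
    · by_cases hi : i = k
      · rw [hi, h1, abs_mul, abs_of_pos hη]
        have := hx'.1 k
        nlinarith [abs_nonneg (x k)]
      · rw [h2 i hi]; exact hx'.1 i
    · obtain ⟨i, hi, hi'⟩ := hN_eq k x
      exact ⟨i, by rw [h2 i hi, hi', hk]⟩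

theorem flatG_mem (hη : 0 < η) (hη' : η < 1 / 4) (hy : y ∈ sphere (0 : Fin 3 → ℝ) 1) :
    flatG k η y ∈ sphere (0 : Fin 3 → ℝ) 1 := by
  obtain ⟨h1, i, hi⟩ := mem_S2.1 hy
  have hs0 : 0 ≤ sG k η y := sG_nonneg hη hη'
  have hs : sG k η y ≤ η := sG_le hη hη' (h1 k)
  have hle : ∀ j, |flatG k η y j| ≤ 1 := by
    intro j
    by_cases hj : j = k
    · rw [hj, flatG_k]
      refine abs_le.2 ⟨le_max_left _ _, max_le (by norm_num) (min_le_left _ _)⟩
    · rw [flatG_ne hj]
      have := abs_gg_le hη hη' hs0 hs (h1 j)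
      linarith
  refine mem_S2.2 ⟨hle, ?_⟩
  rcases le_or_gt (|y k|) η with hk | hk
  · have hs00 : sG k η y = 0 := by
      unfold sG; rw [max_eq_left (by linarith), mul_zero]
    have hik : i ≠ k := by
      rintro rfl; linarith
    refine ⟨i, ?_⟩
    rw [flatG_ne hik, hs00, gg_zero hη (h1 i), hi]
  · refine ⟨k, ?_⟩
    rw [flatG_k]
    have h2 : 1 ≤ 1 / η * |y k| := by
      rw [div_mul_eq_mul_div, one_mul, le_div_iff₀ hη]; linarith
    rcases le_total 0 (y k) with h3 | h3
    · rw [abs_of_nonneg h3] at h2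
      rw [min_eq_left h2, max_eq_right (by norm_num), abs_one]
    · rw [abs_of_nonpos h3, mul_neg] at h2
      rw [min_eq_right (by linarith), max_eq_left (by linarith), abs_neg, abs_one]

theorem flatG_flatF (hη : 0 < η) (hη' : η < 1 / 4) (hx : x ∈ sphere (0 : Fin 3 → ℝ) 1) :
    flatG k η (flatF k η x) = x := by
  have h0 : 0 < 1 - η := by linarith
  have hx' := mem_S2.1 hx
  have hs0 := sF_nonneg (k := k) hη hx
  have hs : sF k η x ≤ η := sF_le
  have h := coef_mul hη hη' hs0 hs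
  have key : sG k η (flatF k η x) = sF k η x ∧ flatG k η (flatF k η x) k = x k := by
    rcases top_or_side (k := k) hx with hk | hk
    · have hkk := flatF_top hη hη' hx hk
      have habs : |flatF k η x k| = η + (1 - η) / η * sF k η x := by
        rw [hkk, abs_mul, hk, one_mul, abs_of_nonneg (by linarith [h.1])]
      refine ⟨?_, ?_⟩
      · unfold sG
        rw [habs, add_sub_cancel_left, max_eq_right h.1]
        field_simp
      · have h2 : 1 ≤ 1 / η * (η + (1 - η) / η * sF k η x) := by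
          rw [div_mul_eq_mul_div, one_mul, le_div_iff₀ hη]; linarith
        rw [flatG_k, hkk]
        rcases (abs_eq zero_le_one).1 hk with h3 | h3
        · rw [h3, one_mul, min_eq_left h2, max_eq_right (by norm_num)]
        · rw [h3, neg_one_mul, mul_neg, min_eq_right (by linarith), max_eq_left (by linarith)]
    · obtain ⟨h1, h2⟩ := flatF_side hη hη' hx hk
      have hxk := abs_le.1 (hx'.1 k)
      refine ⟨?_, ?_⟩
      · unfold sG
        rw [h1, sF_side hη hk, abs_mul, abs_of_pos hη, max_eq_left, mul_zero]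
        nlinarith [hx'.1 k]
      · rw [flatG_k, h1]
        have : 1 / η * (η * x k) = x k := by field_simp
        rw [this, min_eq_right hxk.2, max_eq_right hxk.1]
  funext i
  by_cases hi : i = k
  · rw [hi]; exact key.2
  · rw [flatG_ne hi, key.1, flatF_ne hi, gg_ff hη hη' hs]

theorem flatF_flatG (hη : 0 < η) (hη' : η < 1 / 4) (hy : y ∈ sphere (0 : Fin 3 → ℝ) 1) :
    flatF k η (flatG k η y) = y := by
  have h0 : 0 < 1 - η := by linarith
  obtain ⟨h1, i, hi⟩ := mem_S2.1 hy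
  have hs0 : 0 ≤ sG k η y := sG_nonneg hη hη'
  have hs : sG k η y ≤ η := sG_le hη hη' (h1 k)
  have hH : hN k (flatG k η y) ≤ 1 - sG k η y := by
    refine hN_le fun j hj => ?_
    rw [flatG_ne hj]
    exact abs_gg_le hη hη' hs0 hs (h1 j)
  have hsF : sF k η (flatG k η y) = sG k η y := by
    unfold sF
    by_cases hik : i = k
    · have : sG k η y = η := by
        unfold sG
        rw [← hik, hi, max_eq_right (by linarith)]; field_simp
      rw [min_eq_left (by linarith), this]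
    · have : hN k (flatG k η y) = 1 - sG k η y := by
        refine le_antisymm hH ?_
        have := le_hN hik (flatG k η y)
        rw [flatG_ne hik, abs_gg_edge hη hs0 hs hη' hi] at this
        exact this
      rw [this, sub_sub_cancel, min_eq_right hs]
  funext j
  by_cases hj : j = k
  · rw [hj, flatF_k, hsF, flatG_k]
    rcases le_or_gt (|y k|) η with hk | hk
    · have hs00 : sG k η y = 0 := by
        unfold sG; rw [max_eq_left (by linarith), mul_zero]
      have h3 := abs_le.1 hk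
      have h4 : 1 / η * y k ≤ 1 := by
        rw [div_mul_eq_mul_div, one_mul, div_le_iff₀ hη]; linarith
      have h5 : -1 ≤ 1 / η * y k := by
        rw [div_mul_eq_mul_div, one_mul, le_div_iff₀ hη]; linarith
      rw [hs00, mul_zero, neg_zero, min_eq_right h4, max_eq_right h5]
      have h6 : η * (1 / η * y k) = y k := by field_simp
      rw [h6]
      rcases le_total 0 (1 / η * y k) with h | h
      · rw [min_eq_left h, max_self, add_zero]
      · rw [min_eq_right h, max_eq_left h, add_zero]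
    · have h2 : 1 ≤ 1 / η * |y k| := by
        rw [div_mul_eq_mul_div, one_mul, le_div_iff₀ hη]; linarith
      have h7 : (1 - η) / η * sG k η y = |y k| - η := by
        unfold sG
        rw [max_eq_right (by linarith)]; field_simp
      rw [h7]
      have h8 := h1 k
      rcases le_total 0 (y k) with h3 | h3
      · rw [abs_of_nonneg h3] at h2 hk h8 ⊢
        rw [min_eq_left h2, max_eq_right (by norm_num : (-1:ℝ) ≤ 1), min_eq_left (by linarith),
          max_eq_right (by linarith)]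
        ring
      · rw [abs_of_nonpos h3] at h2 hk h8 ⊢
        rw [mul_neg] at h2
        rw [min_eq_right (show 1 / η * y k ≤ 1 by linarith),
          max_eq_left (show 1 / η * y k ≤ -1 by linarith), min_eq_right (by linarith),
          max_eq_left (by linarith)]
        ring
  · rw [flatF_ne hj, hsF, flatG_ne hj, ff_gg hη hη' hs (h1 j)]

/-- **the flattening** -/
noncomputable def flat (k : Fin 3) {η : ℝ} (hη : 0 < η) (hη' : η < 1 / 4) :
    ConHomeo (sphere (0 : Fin 3 → ℝ) 1) (sphere (0 : Fin 3 → ℝ) 1) where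
  toFun := flatF k η
  invFun := flatG k η
  mapsTo := fun _ hx => flatF_mem hη hη' hx
  mapsTo_inv := fun _ hy => flatG_mem hη hη' hy
  left_inv := fun _ hx => flatG_flatF hη hη' hx
  right_inv := fun _ hy => flatF_flatG hη hη' hy
  cont := continuousOn_pi.2 fun i => (CC.flatF (conicalSet_sphere_pi 3) k η i).cont
  cont_inv := (continuous_flatG k η).continuousOn
  conical := fun x hx => conicalWithinAt_pi (conicalSet_sphere_pi 3 x hx) fun i =>
    (CC.flatF (conicalSet_sphere_pi 3) k η i).con x hx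

/-- the equator is fixed -/
theorem flatF_equator (hη : 0 < η) (hη' : η < 1 / 4) (hx : x ∈ sphere (0 : Fin 3 → ℝ) 1)
    (hk : x k = 0) : flatF k η x = x := by
  have h1 : hN k x = 1 := (top_or_side hx).resolve_left (by rw [hk]; norm_num)
  obtain ⟨h2, h3⟩ := flatF_side hη hη' hx h1
  funext i
  by_cases hi : i = k
  · rw [hi, h2, hk, mul_zero]
  · exact h3 i hi

/-- points which are horizontally close to the equator are mapped close to it -/
theorem flatF_close (hη : 0 < η) (hη' : η < 1 / 4) {ρ : ℝ} (hx : x ∈ sphere (0 : Fin 3 → ℝ) 1)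
    (hy : y ∈ sphere (0 : Fin 3 → ℝ) 1) (hk : x k = 0) (h : ∀ i, i ≠ k → |y i - x i| ≤ ρ) :
    ‖flatF k η y - x‖ ≤ max (3 * ρ) (η + ρ / η) := by
  have h0 : 0 < 1 - η := by linarith
  have h1 : hN k x = 1 := (top_or_side hx).resolve_left (by rw [hk]; norm_num)
  have hρ : 0 ≤ ρ := (abs_nonneg _).trans (h _ (fin3_ne1 k))
  obtain ⟨i, hi, hi'⟩ := hN_eq k x
  have hHy : 1 - ρ ≤ hN k y := by
    have h2 := le_hN hi y
    have h3 := h i hi
    have h4 : |x i| ≤ |y i| + |y i - x i| := by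
      have := abs_sub_abs_le_abs_sub (x i) (y i)
      rw [abs_sub_comm (x i)] at this
      linarith
    rw [hi', h1] at h4
    linarith
  have hs0 := sF_nonneg (k := k) hη hy
  have hs : sF k η y ≤ η := sF_le
  have hsρ : sF k η y ≤ ρ := (min_le_right _ _).trans (by linarith)
  refine (pi_norm_le_iff_of_nonneg ((by positivity : 0 ≤ 3 * ρ).trans (le_max_left _ _))).2
    fun j => ?_
  rw [Pi.sub_apply, Real.norm_eq_abs]
  by_cases hj : j = k
  · refine le_trans ?_ (le_max_right _ _)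
    rw [hj, hk, sub_zero, flatF_k]
    have hc : (1 - η) / η * sF k η y ≤ ρ / η := by
      rw [div_mul_eq_mul_div, div_le_div_iff_of_pos_right hη]
      nlinarith
    have hc0 : 0 ≤ (1 - η) / η * sF k η y := by positivity
    have h5 : |η * y k| ≤ η := by
      rw [abs_mul, abs_of_pos hη]
      nlinarith [(mem_S2.1 hy).1 k, abs_nonneg (y k)]
    refine (abs_add_le _ _).trans (add_le_add h5 (le_trans ?_ hc))
    refine abs_le.2 ⟨le_max_left _ _, max_le (by linarith) (min_le_left _ _)⟩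
  · refine le_trans ?_ (le_max_left _ _)
    rw [flatF_ne hj]
    have h6 := ff_close hη hη' hs0 hs ((mem_S2.1 hy).1 j)
    have h7 := h j hj
    calc |ff η (sF k η y) (y j) - x j|
        = |(ff η (sF k η y) (y j) - y j) + (y j - x j)| := by ring_nf
      _ ≤ 2 * sF k η y + ρ := (abs_add_le _ _).trans (add_le_add h6 h7)
      _ ≤ 3 * ρ := by linarith

end

end P073.GB200
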