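import Vale.Agent.P073.GB200.Cut
import Vale.Agent.P073.SCH.Schoenflies
import Vale.Agent.P073.H339.Arcs2
import Vale.Agent.P073.H339.Glue2

/-!
# P073, block GB3: the two-dimensional inputs, transport of Jordan-Schoenflies
-/

set_option linter.unusedSectionVars false

open Set Metric Topology Filter

namespace P073.GB200

open P073 P073.GB932 P073.H339

variable {E F : Type*} [NormedAddCommGroup E] [NormedSpace ℝ E]
  [NormedAddCommGroup F] [NormedSpace ℝ F]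

/-- every conical circle in the plane is ambient standard -/
theorem ambStd_two : AmbStd 2 := by
  intro S hS
  have hC : IsCircle (pairHomeo.symm.toFun '' S) :=
    IsCircle.image (conSphere_iff.1 hS) pairHomeo.symm (subset_univ _)
  obtain ⟨φ⟩ := hC
  obtain ⟨Φ, hΦ⟩ := SCH.schoenflies_extend φ
  refine ⟨(pairHomeo.symm.trans Φ.symm).trans pairHomeo, ?_⟩
  have h1 : Φ.toFun '' sphere 0 1 = pairHomeo.symm.toFun '' S := by
    rw [hΦ.image_eq, φ.image_eq]
  have h2 : Φ.symm.toFun '' (pairHomeo.symm.toFun '' S) = sphere 0 1 := by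
    rw [← h1]; exact image_image_symm Φ (subset_univ _)
  rw [← pairHomeo_image_sphere 1, ← h2, image_image, image_image]
  rfl

/-- Jordan-Schoenflies is invariant under conical homeomorphisms -/
theorem JordanSch.transport {n : ℕ} {S : Set E} {S' : Set F} (h : JordanSch n S)
    (Φ : ConHomeo S S') : JordanSch n S' := by
  intro γ hγ hγs
  have hγc : ConicalSet γ := by
    obtain ⟨ψ⟩ := hγs
    exact ψ.conicalSet_left
  have hs : ConSphere (n - 1) (Φ.symm.toFun '' γ) := by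
    obtain ⟨ψ⟩ := hγs
    exact ⟨((Φ.symm.restr hγc hγ).symm).trans ψ⟩
  have hsub : Φ.symm.toFun '' γ ⊆ S := by
    rintro _ ⟨x, hx, rfl⟩; exact Φ.symm.mapsTo (hγ hx)
  obtain ⟨U, W, h1, h2, h3, h4, h5, h6⟩ := h _ hsub hs
  have hUS : U ⊆ S := fun x hx => by
    have : x ∈ U ∪ W := Or.inl hx
    rw [h2] at this; exact this.1
  have hWS : W ⊆ S := fun x hx => by
    have : x ∈ U ∪ W := Or.inr hx
    rw [h2] at this; exact this.1
  have e0 : Φ.toFun '' (Φ.symm.toFun '' γ) = γ := image_symm_image Φ hγ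
  refine ⟨Φ.toFun '' U, Φ.toFun '' W, ?_, ?_, h3.image _, h4.image _, ?_, ?_⟩
  · rw [Set.disjoint_iff_inter_eq_empty, ← Φ.injOn.image_inter hUS hWS, h1.inter_eq, image_empty]
  · rw [← image_union, h2, Φ.injOn.image_sdiff_subset hsub, Φ.image_eq, e0]
  · have := h5.image Φ (union_subset hUS hsub)
    rwa [image_union, e0] at this
  · have := h6.image Φ (union_subset hWS hsub)
    rwa [image_union, e0] at this

/-- a conical zero-sphere is a pair of points -/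
theorem exists_pair_of_conSphere {γ : Set E} (h : ConSphere 0 γ) : ∃ p q, p ≠ q ∧ γ = {p, q} := by
  obtain ⟨ψ⟩ := h
  have h1 : ψ.symm.toFun '' sphere (0 : Fin 1 → ℝ) 1 = γ := ψ.symm.image_eq
  have hm1 : (fun _ => -1 : Fin 1 → ℝ) ∈ sphere (0 : Fin 1 → ℝ) 1 := by
    rw [sphere_fin_one]; exact Or.inl rfl
  have hm2 : (fun _ => 1 : Fin 1 → ℝ) ∈ sphere (0 : Fin 1 → ℝ) 1 := by
    rw [sphere_fin_one]; exact Or.inr rfl
  refine ⟨ψ.symm.toFun (fun _ => -1), ψ.symm.toFun (fun _ => 1), ?_, ?_⟩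
  · intro h
    have := congrFun (ψ.symm.injOn hm1 hm2 h) 0
    norm_num at this
  · refine h1.symm.trans ?_
    rw [← image_pair (f := ψ.symm.toFun)]
    exact congrArg (fun S => ψ.symm.toFun '' S) sphere_fin_one

/-- Jordan-Schoenflies on conical circles -/
theorem jordanSch_one {S : Set E} (hS : ConSphere 1 S) : JordanSch 1 S := by
  intro γ hγ hγs
  obtain ⟨p, q, hpq, rfl⟩ := exists_pair_of_conSphere hγs
  obtain ⟨A, B, hA, hB, hAB, hSAB⟩ := IsCircle.arcs_through (conSphere_iff.1 hS)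
    (hγ (Or.inl rfl)) (hγ (Or.inr rfl)) hpq
  have hA' := isArc_iff_conBall.1 hA
  have hB' := isArc_iff_conBall.1 hB
  have eA : A \ {p, q} ∪ {p, q} = A := Set.sdiff_union_of_subset hA'.1
  have eB : B \ {p, q} ∪ {p, q} = B := Set.sdiff_union_of_subset hB'.1
  refine ⟨A \ {p, q}, B \ {p, q}, ?_, ?_, ?_, ?_, ?_, ?_⟩
  · rw [Set.disjoint_left]
    rintro x ⟨h1, h2⟩ ⟨h3, _⟩
    exact h2 (hAB ⟨h1, h3⟩)
  · rw [hSAB, Set.union_sdiff_distrib]
  · exact Set.sdiff_nonempty.2 (IsArc.not_subset_pair hA)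
  · exact Set.sdiff_nonempty.2 (IsArc.not_subset_pair hB)
  · rw [eA]; exact hA'
  · rw [eB]; exact hB'

theorem conSphere_std (n : ℕ) : ConSphere n (sphere (0 : Fin (n + 1) → ℝ) 1) :=
  (conBall_std (n + 1)).conSphere

/-- **the two halves of a conical disc cut by a body** -/
theorem inOut_two {C B A : Set E} (hC : ConBall 2 C B) (hA : IsClosed A)
    (hD : ConBall 1 (C ∩ frontier A) (B ∩ frontier A)) (hin : (C ∩ interior A).Nonempty)
    (hout : (C \ A).Nonempty) :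
    ConBall 2 (C ∩ A) ((B ∩ A) ∪ (C ∩ frontier A)) ∧
      ConBall 2 (C \ interior A) ((B \ interior A) ∪ (C ∩ frontier A)) :=
  inOut (k := 0) ambStd_two (jordanSch_one (conSphere_std 1)) glueSph_one hC hA hD hin hout

/-- **the two halves of a conical three-ball cut by a body** -/
theorem inOut_three (hA3 : AmbStd 3) (hJ : JordanSch 2 (sphere (0 : Fin 3 → ℝ) 1))
    {C B A : Set E} (hC : ConBall 3 C B) (hA : IsClosed A)
    (hD : ConBall 2 (C ∩ frontier A) (B ∩ frontier A)) (hin : (C ∩ interior A).Nonempty)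
    (hout : (C \ A).Nonempty) :
    ConBall 3 (C ∩ A) ((B ∩ A) ∪ (C ∩ frontier A)) ∧
      ConBall 3 (C \ interior A) ((B \ interior A) ∪ (C ∩ frontier A)) :=
  inOut (k := 1) hA3 hJ glueSph_two hC hA hD hin hout

/-- **a proper arc cuts a conical disc into two discs** -/
theorem cut_two {C B D γ : Set E} (hC : ConBall 2 C B) (hD : ConBall 1 D γ) (hDC : D ⊆ C)
    (hDB : D ∩ B = γ) :
    ∃ B₁ B₂ C₁ C₂ : Set E, B₁ ∪ B₂ = B ∧ B₁ ∩ B₂ = γ ∧ ConBall 1 B₁ γ ∧
      ConBall 1 B₂ γ ∧ ConBall 2 C₁ (B₁ ∪ D) ∧ ConBall 2 C₂ (B₂ ∪ D) ∧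
      C₁ ∪ C₂ = C ∧ C₁ ∩ C₂ = D :=
  cut (k := 0) ambStd_two (jordanSch_one (conSphere_std 1)) glueSph_one hC hD hDC hDB

/-- **a proper disc cuts a conical three-ball into two balls** -/
theorem cut_three (hA3 : AmbStd 3) (hJ : JordanSch 2 (sphere (0 : Fin 3 → ℝ) 1))
    {C B D γ : Set E} (hC : ConBall 3 C B) (hD : ConBall 2 D γ) (hDC : D ⊆ C)
    (hDB : D ∩ B = γ) :
    ∃ B₁ B₂ C₁ C₂ : Set E, B₁ ∪ B₂ = B ∧ B₁ ∩ B₂ = γ ∧ ConBall 2 B₁ γ ∧
      ConBall 2 B₂ γ ∧ ConBall 3 C₁ (B₁ ∪ D) ∧ ConBall 3 C₂ (B₂ ∪ D) ∧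
      C₁ ∪ C₂ = C ∧ C₁ ∩ C₂ = D :=
  cut (k := 1) hA3 hJ glueSph_two hC hD hDC hDB

end P073.GB200
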