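import Vale.Agent.P073.GB200.Side

/-!
# P073, block GB3: two bodies cutting the complex along the same pattern are equivalent
-/

set_option linter.unusedSectionVars false

open Set Metric Topology Filter

namespace P073.GB200

open P073 P073.PR720 P073.GB73
open Vale.Agent.P073.St (V)

variable {Vx B J I : Type} {e0 e1 : B → Vx} {inc : B → J → Prop} {qC : J → I → Prop} {Ω : Set V}
  {K : Cx3 e0 e1 inc qC Ω} {P : Set B}

/-- an arc cut at an inner point -/
theorem arc_halves {a : Set V} {u v w : V} (ha : ConBall 1 a {u, v}) (hw : w ∈ a) (hwu : w ≠ u)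
    (hwv : w ≠ v) : ∃ N₀ N₁ : Set V, IsPreconnected N₀ ∧ IsPreconnected N₁ ∧ u ∈ N₀ ∧ v ∈ N₁ ∧
      (∀ x ∈ a, x ∈ N₀ ∨ x = w ∨ x ∈ N₁) ∧ N₀ ⊆ a \ {w} ∧ N₁ ⊆ a \ {w} := by
  obtain ⟨ψ, h0, h1⟩ := ha.exists_param zero_lt_one
  obtain ⟨s, hs, rfl⟩ : w ∈ ψ.toFun '' Icc 0 1 := by rw [ψ.image_eq]; exact hw
  have hs0 : 0 < s := lt_of_le_of_ne hs.1 fun h => hwu (by rw [← h, h0])
  have hs1 : s < 1 := lt_of_le_of_ne hs.2 fun h => hwv (by rw [h, h1])
  have i0 : Ico (0:ℝ) s ⊆ Icc 0 1 := fun t ht => ⟨ht.1, ht.2.le.trans hs1.le⟩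
  have i1 : Ioc s (1:ℝ) ⊆ Icc 0 1 := fun t ht => ⟨hs0.le.trans ht.1.le, ht.2⟩
  refine ⟨ψ.toFun '' Ico 0 s, ψ.toFun '' Ioc s 1, isPreconnected_Ico.image _ (ψ.cont.mono i0),
    isPreconnected_Ioc.image _ (ψ.cont.mono i1), ⟨0, ⟨le_rfl, hs0⟩, h0⟩, ⟨1, ⟨hs1, le_rfl⟩, h1⟩,
    ?_, ?_, ?_⟩
  · intro x hx
    obtain ⟨t, ht, rfl⟩ : x ∈ ψ.toFun '' Icc 0 1 := by rw [ψ.image_eq]; exact hx
    rcases lt_trichotomy t s with h | h | h
    · exact Or.inl ⟨t, ⟨ht.1, h⟩, rfl⟩
    · exact Or.inr (Or.inl (by rw [h]))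
    · exact Or.inr (Or.inr ⟨t, ⟨h, ht.2⟩, rfl⟩)
  · rintro _ ⟨t, ht, rfl⟩
    exact ⟨ψ.mapsTo (i0 ht), fun h => ht.2.ne (ψ.injOn (i0 ht) hs h)⟩
  · rintro _ ⟨t, ht, rfl⟩
    exact ⟨ψ.mapsTo (i1 ht), fun h => ht.1.ne' (ψ.injOn (i1 ht) hs h)⟩

/-- the data of the comparison of two bodies `R`, `A` -/
structure Comp (K : Cx3 e0 e1 inc qC Ω) (R A : Set V) (P : Set B) (p y : B → V)
    (χ : (b : B) → ConHomeo (K.arc b) (K.arc b)) : Prop where
  hR : DomCut K R P p
  hA : DomCut K A P y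
  pat : Pat inc P
  vert : ∀ v, K.y v ∈ interior R ↔ K.y v ∈ interior A
  fix0 : ∀ b, (χ b).toFun (K.y (e0 b)) = K.y (e0 b)
  fix1 : ∀ b, (χ b).toFun (K.y (e1 b)) = K.y (e1 b)
  off : ∀ b ∉ P, ∀ x ∈ K.arc b, (χ b).toFun x = x
  on : ∀ b ∈ P, (χ b).toFun (p b) = y b

namespace Comp

variable {R A : Set V} {p y : B → V} {χ : (b : B) → ConHomeo (K.arc b) (K.arc b)}

/-- the vertices are on the same side -/
theorem vert_out (h : Comp K R A P p y χ) (v : Vx) : K.y v ∉ R → K.y v ∉ A := by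
  intro h1 h2
  have h3 : K.y v ∉ interior A := fun h' => h1 (interior_subset ((h.vert v).2 h'))
  exact Cr.vert_notMem h.hA.crosses h.hA.ball.isClosed v ⟨subset_closure h2, h3⟩

/-- the halves of the arcs correspond -/
theorem half (h : Comp K R A P p y χ) (b : B) : ∀ x ∈ K.arc b,
    (x ∈ R ↔ (χ b).toFun x ∈ A) ∧ (x ∈ interior R ↔ (χ b).toFun x ∈ interior A) := by
  have hRcl := h.hR.ball.isClosed
  have hAcl := h.hA.ball.isClosed
  by_cases hb : b ∈ P
  · -- a crossed arc
    have hp := Cr.q_arc h.hR.crosses hb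
    have hpf := Cr.q_fr h.hR.crosses hb
    have hyf := Cr.q_fr h.hA.crosses hb
    have key : ∀ u v : V, u ∈ K.arc b → v ∈ K.arc b → (χ b).toFun u = u → (χ b).toFun v = v →
        ConBall 1 (K.arc b) {u, v} → u ∈ interior R → v ∉ R → u ∈ interior A → v ∉ A →
        ∀ x ∈ K.arc b, (x ∈ R ↔ (χ b).toFun x ∈ A) ∧
          (x ∈ interior R ↔ (χ b).toFun x ∈ interior A) := by
      intro u v hu hv hfu hfv hball huR hvR huA hvA
      obtain ⟨N₀, N₁, c0, c1, m0, m1, hcov, s0, s1⟩ := arc_halves hball hp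
        (fun h' => hpf.2 (h' ▸ huR)) (fun h' => hvR (h' ▸ hRcl.frontier_subset hpf))
      have dR : ∀ N : Set V, N ⊆ K.arc b \ {p b} → Disjoint N (frontier R) := by
        intro N hN
        rw [Set.disjoint_left]
        intro z hz hf
        obtain ⟨-, he⟩ := Cr.eq_q h.hR.crosses (hN hz).1 hf
        exact (hN hz).2 he
      have dA : ∀ N : Set V, N ⊆ K.arc b \ {p b} → Disjoint ((χ b).toFun '' N) (frontier A) := by
        intro N hN
        rw [Set.disjoint_left]
        rintro _ ⟨z, hz, rfl⟩ hf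
        obtain ⟨-, he⟩ := Cr.eq_q h.hA.crosses ((χ b).mapsTo (hN hz).1) hf
        rw [← h.on b hb] at he
        exact (hN hz).2 ((χ b).injOn (hN hz).1 hp he)
      have a0 : N₀ ⊆ K.arc b := s0.trans Set.sdiff_subset
      have a1 : N₁ ⊆ K.arc b := s1.trans Set.sdiff_subset
      have r0 : N₀ ⊆ interior R := by
        rcases in_or_out c0 (dR N₀ s0) with h' | h'
        · exact h'
        · exact absurd (interior_subset huR) (Set.disjoint_left.1 h' m0)
      have r1 : Disjoint N₁ R := by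
        rcases in_or_out c1 (dR N₁ s1) with h' | h'
        · exact absurd (interior_subset (h' m1)) hvR
        · exact h'
      have q0 : (χ b).toFun '' N₀ ⊆ interior A := by
        rcases in_or_out (c0.image _ ((χ b).cont.mono a0)) (dA N₀ s0) with h' | h'
        · exact h'
        · exact absurd (interior_subset (hfu.symm ▸ huA : (χ b).toFun u ∈ interior A))
            (Set.disjoint_left.1 h' (mem_image_of_mem _ m0))
      have q1 : Disjoint ((χ b).toFun '' N₁) A := by
        rcases in_or_out (c1.image _ ((χ b).cont.mono a1)) (dA N₁ s1) with h' | h'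
        · exact absurd (interior_subset (h' (mem_image_of_mem _ m1))) (hfv.symm ▸ hvA)
        · exact h'
      intro x hx
      rcases hcov x hx with hx | hx | hx
      · have e1 := r0 hx
        have e2 := q0 (mem_image_of_mem _ hx)
        exact ⟨⟨fun _ => interior_subset e2, fun _ => interior_subset e1⟩,
          ⟨fun _ => e2, fun _ => e1⟩⟩
      · subst hx
        rw [h.on b hb]
        exact ⟨⟨fun _ => hAcl.frontier_subset hyf, fun _ => hRcl.frontier_subset hpf⟩,
          ⟨fun h' => absurd h' hpf.2, fun h' => absurd h' hyf.2⟩⟩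
      · have e1 := Set.disjoint_left.1 r1 hx
        have e2 := Set.disjoint_left.1 q1 (mem_image_of_mem _ hx)
        exact ⟨⟨fun h' => absurd h' e1, fun h' => absurd h' e2⟩,
          ⟨fun h' => absurd (interior_subset h') e1, fun h' => absurd (interior_subset h') e2⟩⟩
    have hends := h.hR.crosses.ends b hb
    simp only [id] at hends
    rcases hends with ⟨h1, h2⟩ | ⟨h1, h2⟩
    · exact key _ _ (Cx.vert0_mem K b) (Cx.vert1_mem K b) (h.fix0 b) (h.fix1 b) (K.ball b) h1 h2
        ((h.vert _).1 h1) (h.vert_out _ h2)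
    · exact key _ _ (Cx.vert1_mem K b) (Cx.vert0_mem K b) (h.fix1 b) (h.fix0 b)
        (by rw [pair_comm]; exact K.ball b) h1 h2 ((h.vert _).1 h1) (h.vert_out _ h2)
  · -- an uncrossed arc
    intro x hx
    rw [h.off b hb x hx]
    have hpre := (K.ball b).isPreconnected
    have hv := h.vert (e0 b)
    have hvo := h.vert_out (e0 b)
    have hm := Cx.vert0_mem K b
    rcases in_or_out hpre (Cr.off' h.hR.crosses hb) with h1 | h1
    · rcases in_or_out hpre (Cr.off' h.hA.crosses hb) with h2 | h2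
      · exact ⟨⟨fun _ => interior_subset (h2 hx), fun _ => interior_subset (h1 hx)⟩,
          ⟨fun _ => h2 hx, fun _ => h1 hx⟩⟩
      · exact absurd (interior_subset (hv.1 (h1 hm))) (Set.disjoint_left.1 h2 hm)
    · rcases in_or_out hpre (Cr.off' h.hA.crosses hb) with h2 | h2
      · exact absurd (interior_subset (hv.2 (h2 hm))) (Set.disjoint_left.1 h1 hm)
      · have e1 := Set.disjoint_left.1 h1 hx
        have e2 := Set.disjoint_left.1 h2 hx
        exact ⟨⟨fun h' => absurd h' e1, fun h' => absurd h' e2⟩,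
          ⟨fun h' => absurd (interior_subset h') e1, fun h' => absurd (interior_subset h') e2⟩⟩

/-- a connected set off both frontiers which contains a vertex -/
theorem same_side (h : Comp K R A P p y χ) {Z : Set V} (hZ : IsPreconnected Z)
    (hR : Disjoint Z (frontier R)) (hA : Disjoint Z (frontier A)) {v : Vx} (hv : K.y v ∈ Z) :
    Z ∩ R = Z ∩ A ∧ Z \ interior R = Z \ interior A := by
  rcases in_or_out hZ hR with h1 | h1
  · rcases in_or_out hZ hA with h2 | h2
    · constructor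
      · rw [inter_eq_left.2 (h1.trans interior_subset), inter_eq_left.2 (h2.trans interior_subset)]
      · rw [Set.sdiff_eq_empty.2 h1, Set.sdiff_eq_empty.2 h2]
    · exact absurd (interior_subset ((h.vert v).1 (h1 hv))) (Set.disjoint_left.1 h2 hv)
  · rcases in_or_out hZ hA with h2 | h2
    · exact absurd (interior_subset ((h.vert v).2 (h2 hv))) (Set.disjoint_left.1 h1 hv)
    · constructor
      · rw [h1.inter_eq, h2.inter_eq]
      · rw [(h1.mono_right interior_subset).sdiff_eq_left,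
          (h2.mono_right interior_subset).sdiff_eq_left]

theorem tile_side (h : Comp K R A P p y χ) {j : J} (hj : ¬ CrT inc P j) :
    K.tile j ∩ R = K.tile j ∩ A ∧ K.tile j \ interior R = K.tile j \ interior A := by
  obtain ⟨b, hb⟩ := Cx.exists_vert_tile K j
  exact h.same_side (K.tball j).isPreconnected (h.hR.off_tile j (not_crT hj))
    (h.hA.off_tile j (not_crT hj)) (K.toCx2.arc_subset_tile hb (Cx.vert0_mem K b))

theorem cell_side (h : Comp K R A P p y χ) {c : I} (hc : ¬ CrC inc qC P c) :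
    K.cell c ∩ R = K.cell c ∩ A ∧ K.cell c \ interior R = K.cell c \ interior A := by
  obtain ⟨s, hs⟩ := Cx.exists_tile_cell K c
  obtain ⟨b, hb⟩ := Cx.exists_vert_tile K s
  have hc' : ∀ j, qC j c → {b | inc b j ∧ b ∈ P} = ∅ := fun j hj =>
    not_crT fun h' => hc ⟨j, hj, h'⟩
  exact h.same_side (K.cball c).isPreconnected (h.hR.off_cell c hc') (h.hA.off_cell c hc')
    (Cx.tile_sub_cell K hs (K.toCx2.arc_subset_tile hb (Cx.vert0_mem K b)))

/-- stage zero: the map on the uncut part -/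
theorem exists_phi0 (h : Comp K R A P p y χ) : ∃ φ : ConHomeo (X0 K P) (X0 K P),
    (∀ b, EqOn φ.toFun (χ b).toFun (K.arc b)) ∧
    (∀ j, ¬ CrT inc P j → ∀ x ∈ K.tile j, φ.toFun x = x) ∧
    (∀ c, ¬ CrC inc qC P c → ∀ x ∈ K.cell c, φ.toFun x = x) := by
  have hball : ∀ j, ConicalSet (K.tile j) := fun j => (K.tball j).conicalSet
  have hcell : ∀ c, ConicalSet (K.cell c) := fun c => (K.cball c).conicalSet
  let m : ∀ i, ConHomeo (XI K P i) (XI K P i) := fun i =>
    match i with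
    | Sum.inl b => χ b
    | Sum.inr (Sum.inl j) => ConHomeo.refl (hball j.1)
    | Sum.inr (Sum.inr c) => ConHomeo.refl (hcell c.1)
  have hRel : RelLF (XI K P) := ⟨fun z hz => lf_XI z (X0_sub hz), fun i z _ hz => by
    rwa [(XI_closed i).closure_eq] at hz⟩
  -- vertices are fixed
  have hvert : ∀ b, ∀ v, K.y v ∈ K.arc b → (χ b).toFun (K.y v) = K.y v := by
    intro b v hv
    rcases K.mem b v hv with h' | h'
    · rw [h']; exact h.fix0 b
    · rw [h']; exact h.fix1 b
  have htile : ∀ b j, ¬ CrT inc P j → ∀ z ∈ K.arc b, z ∈ K.tile j → (χ b).toFun z = z := by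
    intro b j hj z hz hzj
    obtain ⟨b', hb', hz'⟩ := (Cx.mem_bd K).1 (Cx.tile_arc' K hzj hz)
    have hbP : b' ∉ P := fun h' => hj (crT_of hb' h')
    by_cases hbb : b = b'
    · rw [hbb] at hz ⊢
      exact h.off b' hbP z hz
    · obtain ⟨v, hv⟩ := K.inter b b' hbb ⟨hz, hz'⟩
      rw [← hv]; exact hvert b v (hv ▸ hz)
  have hcell' : ∀ b c, ¬ CrC inc qC P c → ∀ z ∈ K.arc b, z ∈ K.cell c → (χ b).toFun z = z := by
    intro b c hc z hz hzc
    obtain ⟨s, hs, hzs⟩ := Cx.cell_arc K hzc hz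
    exact htile b s (fun h' => hc ⟨s, hs, h'⟩) z hz hzs
  -- on the overlaps both maps are the identity
  have hid : ∀ i j, i ≠ j → ∀ z ∈ XI K P i ∩ XI K P j, (m i).toFun z = z := by
    rintro (b | j | c) i' hne z ⟨hz, hz'⟩
    · rcases i' with b' | j' | c'
      · obtain ⟨v, hv⟩ := K.inter b b' (fun h' => hne (by rw [h'])) ⟨hz, hz'⟩
        show (χ b).toFun z = z
        rw [← hv]; exact hvert b v (hv ▸ hz)
      · exact htile b j'.1 j'.2 z hz hz'
      · exact hcell' b c'.1 c'.2 z hz hz'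
    · rfl
    · rfl
  obtain ⟨Φ, hΦ⟩ := ConHomeo.exists_glue_family hRel hRel m (by
      intro i j z hz
      by_cases hij : i = j
      · subst hij; rfl
      · rw [hid i j hij z hz, hid j i (fun h' => hij h'.symm) z ⟨hz.2, hz.1⟩]) (by
      intro i j z hz
      by_cases hij : i = j
      · subst hij
        rw [inter_self, (m i).image_eq]; exact hz.1
      · exact ⟨z, hz, hid i j hij z hz⟩)
  refine ⟨Φ, fun b => (hΦ (Sum.inl b)).1, fun j hj x hx => ?_, fun c hc x hx => ?_⟩
  · exact (hΦ (Sum.inr (Sum.inl ⟨j, hj⟩))).1 hx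
  · exact (hΦ (Sum.inr (Sum.inr ⟨c, hc⟩))).1 hx

end Comp

end P073.GB200
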