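import Vale.Agent.P073.SCH.Amb
import Vale.Agent.P073.PR.Boxes

/-!
# P073, block GB3: Jordan balls (topological part): uniqueness, nesting, crosscuts

The same as `H339.JDisc` in any normed space.
-/

set_option linter.unusedSectionVars false

open Set Metric Topology Filter

namespace P073.GB200

variable {E : Type*} [NormedAddCommGroup E] [NormedSpace ℝ E]

/-- `D` is a Jordan disc with boundary `C` (topological properties only) -/
structure JBall (D C : Set E) : Prop where
  compact : IsCompact D
  frontier_eq : frontier D = C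
  int_conn : IsPreconnected (interior D)
  int_ne : (interior D).Nonempty
  ext_conn : IsPreconnected Dᶜ
  closure_int : closure (interior D) = D
  /-- locally the exterior is connected near each boundary point -/
  lts : ∀ x ∈ C, ∀ U ∈ 𝓝 x, ∃ V ∈ 𝓝 x, V ⊆ U ∧ IsPreconnected (V \ D)

namespace JBall

variable {D C D₁ C₁ D₂ C₂ : Set E}

theorem isClosed (h : JBall D C) : IsClosed D := h.compact.isClosed

theorem bdry_subset (h : JBall D C) : C ⊆ D := h.frontier_eq ▸ h.isClosed.frontier_subset

theorem bdry_closed (h : JBall D C) : IsClosed C := h.frontier_eq ▸ isClosed_frontier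

theorem bdry_compact (h : JBall D C) : IsCompact C :=
  h.compact.of_isClosed_subset h.bdry_closed h.bdry_subset

theorem interior_eq (h : JBall D C) : interior D = D \ C := by
  have := self_sdiff_frontier D
  rw [h.frontier_eq] at this
  exact this.symm

theorem interior_disj (h : JBall D C) {x : E} (hx : x ∈ interior D) : x ∉ C := by
  rw [h.interior_eq] at hx; exact hx.2

theorem mem_interior (h : JBall D C) {x : E} (hx : x ∈ D) (hxC : x ∉ C) : x ∈ interior D := by
  rw [h.interior_eq]; exact ⟨hx, hxC⟩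

theorem not_bounded_compl [Nontrivial E] (h : JBall D C) : ¬ Bornology.IsBounded Dᶜ := by
  intro hb
  have : Bornology.IsBounded (univ : Set E) := by
    rw [← union_compl_self D]
    exact h.compact.isBounded.union hb
  exact NormedSpace.unbounded_univ ℝ E this

/-- (K1) a preconnected set off the boundary is inside or outside -/
theorem in_or_out (h : JBall D C) {S : Set E} (hS : IsPreconnected S) (hSC : Disjoint S C) :
    S ⊆ interior D ∨ Disjoint S D := by
  have hcov : S ⊆ interior D ∪ Dᶜ := by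
    intro x hx
    by_cases hxD : x ∈ D
    · exact Or.inl (h.mem_interior hxD fun hc => (disjoint_left.1 hSC hx hc))
    · exact Or.inr hxD
  have hdis : Disjoint (interior D) Dᶜ := disjoint_left.2 fun x hx hx' => hx' (interior_subset hx)
  rcases (isPreconnected_iff_subset_of_disjoint.1 hS) _ _ isOpen_interior
    h.isClosed.isOpen_compl hcov (by
      rw [hdis.inter_eq, inter_empty]) with h1 | h1
  · exact Or.inl h1
  · exact Or.inr (disjoint_left.2 fun x hx => h1 hx)

/-- (K2) an unbounded preconnected set off the boundary is outside -/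
theorem out_of_unbounded (h : JBall D C) {S : Set E} (hS : IsPreconnected S)
    (hSC : Disjoint S C) (hun : ¬ Bornology.IsBounded S) : Disjoint S D := by
  rcases h.in_or_out hS hSC with h1 | h1
  · exact absurd (h.compact.isBounded.subset (h1.trans interior_subset)) hun
  · exact h1

/-- (K3) nesting -/
theorem subset_of_bdry [Nontrivial E] (h : JBall D C) (h₁ : JBall D₁ C₁) (hC : C₁ ⊆ D) : D₁ ⊆ D := by
  have := h₁.out_of_unbounded h.ext_conn (disjoint_left.2 fun x hx hx' => hx (hC hx'))
    h.not_bounded_compl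
  intro x hx
  by_contra hxD
  exact disjoint_left.1 this hxD hx

/-- uniqueness of the disc bounded by a curve -/
theorem unique [Nontrivial E] (h : JBall D C) (h₁ : JBall D₁ C) : D = D₁ :=
  Subset.antisymm (h₁.subset_of_bdry h h₁.bdry_subset) (h.subset_of_bdry h₁ h.bdry_subset)

/-- strict nesting: a disc whose boundary is in the interior is in the interior -/
theorem subset_interior_of_bdry [Nontrivial E] (h : JBall D C) (h₁ : JBall D₁ C₁) (hC : C₁ ⊆ interior D) :
    D₁ ⊆ interior D := by
  have hsub := h.subset_of_bdry h₁ (hC.trans interior_subset)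
  intro x hx
  apply h.mem_interior (hsub hx)
  intro hxC
  -- x in frontier D, x in D₁; x not in C₁ so interior point of D₁ ⊆ D
  have hx1 : x ∉ C₁ := fun h' => h.interior_disj (hC h') hxC
  have hx2 := h₁.mem_interior hx hx1
  have hx3 : x ∈ interior D := interior_mono hsub hx2
  exact h.interior_disj hx3 hxC

/-- the boundary is in the closure of the exterior -/
theorem bdry_subset_closure_compl (h : JBall D C) : C ⊆ closure Dᶜ := by
  rw [← h.frontier_eq, frontier_eq_closure_inter_closure]
  exact inter_subset_right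

/-- **Crosscut theorem.**  `C = A₁ ∪ A₂` bounds `D`, `α` is a crosscut with the same end points,
`A₁ ∪ α` bounds `D₁`, `A₂ ∪ α` bounds `D₂`. -/
theorem crosscut [Nontrivial E] {A₁ A₂ α : Set E} {γ : Set E}
    (h : JBall D (A₁ ∪ A₂)) (h₁ : JBall D₁ (A₁ ∪ α)) (h₂ : JBall D₂ (A₂ ∪ α))
    (hαD : α ⊆ D) (hαA₁ : α ∩ A₁ ⊆ γ) (hαA₂ : α ∩ A₂ ⊆ γ) (hA : A₁ ∩ A₂ ⊆ γ)
    (hγ : γ ⊆ α) (hne₁ : ¬ A₁ ⊆ γ) (hne₂ : ¬ A₂ ⊆ γ)
    (hA₁ : IsClosed A₁) (hA₂ : IsClosed A₂) :
    D = D₁ ∪ D₂ ∧ D₁ ∩ D₂ = α ∧ A₂ ∩ D₁ ⊆ γ ∧ A₁ ∩ D₂ ⊆ γ := by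
  have hAD : A₁ ∪ A₂ ⊆ D := h.bdry_subset
  have hab : γ ⊆ α := hγ
  have s1 : D₁ ⊆ D := h.subset_of_bdry h₁ (union_subset (subset_union_left.trans hAD) hαD)
  have s2 : D₂ ⊆ D := h.subset_of_bdry h₂ (union_subset (subset_union_right.trans hAD) hαD)
  -- the other arcs are outside
  have o1 : A₂ ∩ D₁ ⊆ γ := by
    rintro x ⟨hx, hxD⟩
    by_contra hxab
    have hx1 : x ∉ A₁ ∪ α := by
      rintro (h' | h')
      · exact hxab (hA ⟨h', hx⟩)
      · exact hxab (hαA₂ ⟨h', hx⟩)
    have hxi : x ∈ interior D := interior_mono s1 (h₁.mem_interior hxD hx1)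
    exact h.interior_disj hxi (Or.inr hx)
  have o2 : A₁ ∩ D₂ ⊆ γ := by
    rintro x ⟨hx, hxD⟩
    by_contra hxab
    have hx1 : x ∉ A₂ ∪ α := by
      rintro (h' | h')
      · exact hxab (hA ⟨hx, h'⟩)
      · exact hxab (hαA₁ ⟨h', hx⟩)
    have hxi : x ∈ interior D := interior_mono s2 (h₂.mem_interior hxD hx1)
    exact h.interior_disj hxi (Or.inl hx)
  -- disjoint interiors
  have d1 : Disjoint (interior D₁) D₂ := by
    have hdis : Disjoint (interior D₁) (A₂ ∪ α) := by
      rw [disjoint_left]
      intro x hx hx'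
      have hxα : x ∉ α := fun h' => h₁.interior_disj hx (Or.inr h')
      rcases hx' with h' | h'
      · exact hxα (hab (o1 ⟨h', interior_subset hx⟩))
      · exact hxα h'
    rcases h₂.in_or_out h₁.int_conn hdis with h' | h'
    · exfalso
      apply hne₁
      have : D₁ ⊆ D₂ := by
        rw [← h₁.closure_int, ← h₂.closure_int]
        exact closure_mono h'
      intro x hx
      exact o2 ⟨hx, this (h₁.bdry_subset (Or.inl hx))⟩
    · exact h'
  have d2 : Disjoint (interior D₂) D₁ := by
    have hdis : Disjoint (interior D₂) (A₁ ∪ α) := by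
      rw [disjoint_left]
      intro x hx hx'
      have hxα : x ∉ α := fun h' => h₂.interior_disj hx (Or.inr h')
      rcases hx' with h' | h'
      · exact hxα (hab (o2 ⟨h', interior_subset hx⟩))
      · exact hxα h'
    rcases h₁.in_or_out h₂.int_conn hdis with h' | h'
    · exfalso
      apply hne₂
      have : D₂ ⊆ D₁ := by
        rw [← h₁.closure_int, ← h₂.closure_int]
        exact closure_mono h'
      intro x hx
      exact o1 ⟨hx, this (h₂.bdry_subset (Or.inl hx))⟩
    · exact h'
  have hint : D₁ ∩ D₂ = α := by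
    apply Subset.antisymm
    · rintro x ⟨hx1, hx2⟩
      have hx1' : x ∈ A₁ ∪ α := by
        by_contra hc
        exact disjoint_left.1 d1 (h₁.mem_interior hx1 hc) hx2
      have hx2' : x ∈ A₂ ∪ α := by
        by_contra hc
        exact disjoint_left.1 d2 (h₂.mem_interior hx2 hc) hx1
      rcases hx1' with h' | h'
      · rcases hx2' with h'' | h''
        · exact hab (hA ⟨h', h''⟩)
        · exact h''
      · exact h'
    · intro x hx
      exact ⟨h₁.bdry_subset (Or.inr hx), h₂.bdry_subset (Or.inr hx)⟩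
  refine ⟨Subset.antisymm ?_ (union_subset s1 s2), hint, o1, o2⟩
  -- D ⊆ D₁ ∪ D₂
  have hopen : ∀ x ∈ interior D, x ∈ D₁ ∪ D₂ → x ∈ interior (D₁ ∪ D₂) := by
    intro x hxi hx
    by_cases hx1 : x ∈ interior D₁
    · exact interior_mono subset_union_left hx1
    by_cases hx2 : x ∈ interior D₂
    · exact interior_mono subset_union_right hx2
    have hxA : x ∉ A₁ ∪ A₂ := h.interior_disj hxi
    have hxα : x ∈ α := by
      rcases hx with hx | hx
      · have : x ∈ A₁ ∪ α := by
          by_contra hc; exact hx1 (h₁.mem_interior hx hc)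
        rcases this with h' | h'
        · exact absurd (Or.inl h') hxA
        · exact h'
      · have : x ∈ A₂ ∪ α := by
          by_contra hc; exact hx2 (h₂.mem_interior hx hc)
        rcases this with h' | h'
        · exact absurd (Or.inr h') hxA
        · exact h'
    have hU : (A₁ ∪ A₂)ᶜ ∈ 𝓝 x := (hA₁.union hA₂).isOpen_compl.mem_nhds hxA
    obtain ⟨V, hV, hVU, hVc⟩ := h₁.lts x (Or.inr hxα) _ hU
    have hdis : Disjoint (V \ D₁) (A₂ ∪ α) := by
      rw [disjoint_left]
      rintro y ⟨hyV, hyD⟩ (h' | h')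
      · exact hVU hyV (Or.inr h')
      · exact hyD (h₁.bdry_subset (Or.inr h'))
    rw [mem_interior_iff_mem_nhds]
    rcases h₂.in_or_out hVc hdis with h' | h'
    · filter_upwards [hV] with y hy
      by_cases hyD : y ∈ D₁
      · exact Or.inl hyD
      · exact Or.inr (interior_subset (h' ⟨hy, hyD⟩))
    · exfalso
      have hx2' : x ∈ closure (interior D₂) := by
        rw [h₂.closure_int]; exact h₂.bdry_subset (Or.inr hxα)
      obtain ⟨y, hyV, hyI⟩ := mem_closure_iff_nhds.1 hx2' V hV
      by_cases hyD : y ∈ D₁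
      · exact disjoint_left.1 d2 hyI hyD
      · exact disjoint_left.1 h' ⟨hyV, hyD⟩ (interior_subset hyI)
  have hclosed : IsClosed (D₁ ∪ D₂) := h₁.isClosed.union h₂.isClosed
  have hsub : interior D ⊆ D₁ ∪ D₂ := by
    have hcov : interior D ⊆ interior (D₁ ∪ D₂) ∪ (D₁ ∪ D₂)ᶜ := by
      intro x hx
      by_cases hx' : x ∈ D₁ ∪ D₂
      · exact Or.inl (hopen x hx hx')
      · exact Or.inr hx'
    have hdis : interior (D₁ ∪ D₂) ∩ (D₁ ∪ D₂)ᶜ = ∅ := by
      rw [← disjoint_iff_inter_eq_empty, disjoint_left]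
      exact fun x hx hx' => hx' (interior_subset hx)
    rcases (isPreconnected_iff_subset_of_disjoint.1 h.int_conn) _ _ isOpen_interior
      hclosed.isOpen_compl hcov (by rw [hdis, inter_empty]) with h' | h'
    · exact h'.trans interior_subset
    · exfalso
      obtain ⟨x, hx⟩ := h₁.int_ne
      exact h' (interior_mono s1 hx) (Or.inl (interior_subset hx))
  rw [← h.closure_int]
  exact closure_minimal hsub hclosed

end JBall


/-! ### The standard ball -/

theorem isPreconnected_Ioo_diff {c ρ : ℝ} (hρ : ρ ≤ 1) :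
    ∃ a b : ℝ, ball c ρ \ closedBall (0:ℝ) 1 = Ioo a b := by
  rw [Real.ball_eq_Ioo, Real.closedBall_eq_Icc]
  rcases le_total 0 c with hc | hc
  · refine ⟨max (c - ρ) 1, c + ρ, ?_⟩
    ext x
    simp only [Set.mem_sdiff, mem_Ioo, mem_Icc, max_lt_iff, not_and, not_le]
    constructor
    · rintro ⟨⟨h1, h2⟩, h3⟩
      exact ⟨⟨h1, by have := h3 (by linarith); linarith⟩, h2⟩
    · rintro ⟨⟨h1, h2⟩, h3⟩
      exact ⟨⟨h1, h3⟩, fun _ => by linarith⟩
  · refine ⟨c - ρ, min (c + ρ) (-1), ?_⟩
    ext x
    simp only [Set.mem_sdiff, mem_Ioo, mem_Icc, lt_min_iff, not_and, not_le]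
    constructor
    · rintro ⟨⟨h1, h2⟩, h3⟩
      refine ⟨h1, h2, ?_⟩
      by_contra h4
      have := h3 (by linarith)
      linarith
    · rintro ⟨h1, h2, h3⟩
      exact ⟨⟨h1, h2⟩, fun h4 => by linarith⟩

theorem isPreconnected_ball_diff {n : ℕ} {y : Fin n → ℝ} {ρ : ℝ} (hρ0 : 0 < ρ) (hρ : ρ ≤ 1) :
    IsPreconnected (ball y ρ \ closedBall (0 : Fin n → ℝ) 1) := by
  classical
  -- the part of the ball where the coordinate `i` is large
  let A : Fin n → Fin n → Set ℝ := fun i k =>
    if k = i then ball (y i) ρ \ closedBall (0:ℝ) 1 else ball (y k) ρ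
  let P : Fin n → Set (Fin n → ℝ) := fun i => univ.pi (A i)
  have hP : ∀ i, IsPreconnected (P i) := by
    intro i
    refine isPreconnected_univ_pi fun k => ?_
    show IsPreconnected (if k = i then ball (y i) ρ \ closedBall (0:ℝ) 1 else ball (y k) ρ)
    split_ifs with h
    · obtain ⟨a, b, hab⟩ := isPreconnected_Ioo_diff (c := y i) hρ
      rw [hab]; exact isPreconnected_Ioo
    · exact (convex_ball _ _).isPreconnected
  have hmem : ∀ i v, v ∈ P i ↔ v ∈ ball y ρ ∧ 1 < |v i| := by
    intro i v
    constructor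
    · intro h
      have hk : ∀ k, v k ∈ A i k := fun k => h k (mem_univ k)
      have hki : v i ∈ ball (y i) ρ \ closedBall (0:ℝ) 1 := by
        have := hk i
        simpa [A] using this
      refine ⟨?_, ?_⟩
      · rw [mem_ball, dist_pi_lt_iff hρ0]
        intro k
        by_cases h' : k = i
        · subst h'; exact hki.1
        · have := hk k
          simp only [A, h', if_false] at this
          exact this
      · have := hki.2
        rw [mem_closedBall_zero_iff, not_le, Real.norm_eq_abs] at this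
        exact this
    · rintro ⟨h1, h2⟩ k _
      rw [mem_ball, dist_pi_lt_iff hρ0] at h1
      show v k ∈ (if k = i then ball (y i) ρ \ closedBall (0:ℝ) 1 else ball (y k) ρ)
      split_ifs with h
      · subst h
        exact ⟨h1 k, by rw [mem_closedBall_zero_iff, not_le, Real.norm_eq_abs]; exact h2⟩
      · exact h1 k
  have hU : ball y ρ \ closedBall (0 : Fin n → ℝ) 1 = ⋃ i, P i := by
    ext v
    rw [mem_iUnion]
    constructor
    · rintro ⟨h1, h2⟩
      rw [mem_closedBall_zero_iff, not_le] at h2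
      by_contra hcon
      push Not at hcon
      have : ‖v‖ ≤ 1 := by
        rw [pi_norm_le_iff_of_nonneg zero_le_one]
        intro i
        rw [Real.norm_eq_abs]
        by_contra h3
        exact hcon i ((hmem i v).2 ⟨h1, not_le.1 h3⟩)
      linarith
    · rintro ⟨i, hi⟩
      obtain ⟨h1, h2⟩ := (hmem i v).1 hi
      refine ⟨h1, ?_⟩
      rw [mem_closedBall_zero_iff, not_le]
      exact lt_of_lt_of_le h2 (norm_le_pi_norm v i)
  rw [hU]
  -- any two of the nonempty pieces meet
  have hmeet : ∀ i j, (P i).Nonempty → (P j).Nonempty → (P i ∩ P j).Nonempty := by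
    rintro i j ⟨v, hv⟩ ⟨w, hw⟩
    obtain ⟨hv1, hv2⟩ := (hmem i v).1 hv
    obtain ⟨hw1, hw2⟩ := (hmem j w).1 hw
    rw [mem_ball, dist_pi_lt_iff hρ0] at hv1 hw1
    refine ⟨fun k => if k = i then v k else w k, (hmem i _).2 ⟨?_, ?_⟩, (hmem j _).2 ⟨?_, ?_⟩⟩
    · rw [mem_ball, dist_pi_lt_iff hρ0]
      intro k
      show dist (if k = i then v k else w k) (y k) < ρ
      split_ifs
      · exact hv1 k
      · exact hw1 k
    · simpa using hv2
    · rw [mem_ball, dist_pi_lt_iff hρ0]
      intro k
      show dist (if k = i then v k else w k) (y k) < ρ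
      split_ifs
      · exact hv1 k
      · exact hw1 k
    · show 1 < |if j = i then v j else w j|
      split_ifs with h
      · rw [h]; exact hv2
      · exact hw2
  by_cases hne : ∃ i, (P i).Nonempty
  · obtain ⟨i₀, hi₀⟩ := hne
    have hfam : (⋃ i, P i) = ⋃ i : {i // (P i).Nonempty}, (P i₀ ∪ P i.1) := by
      ext v
      rw [mem_iUnion, mem_iUnion]
      constructor
      · rintro ⟨i, hi⟩; exact ⟨⟨i, ⟨v, hi⟩⟩, Or.inr hi⟩
      · rintro ⟨i, hi | hi⟩
        · exact ⟨i₀, hi⟩
        · exact ⟨i.1, hi⟩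
    rw [hfam]
    obtain ⟨x₀, hx₀⟩ := hi₀
    refine isPreconnected_iUnion ⟨x₀, mem_iInter.2 fun i => Or.inl hx₀⟩ fun i => ?_
    obtain ⟨z, hz1, hz2⟩ := hmeet i₀ i.1 ⟨x₀, hx₀⟩ i.2
    exact IsPreconnected.union z hz1 hz2 (hP i₀) (hP i.1)
  · push Not at hne
    have : (⋃ i, P i) = ∅ := by
      rw [iUnion_eq_empty]
      intro i
      exact hne i
    rw [this]; exact isPreconnected_empty

theorem isPreconnected_compl_closedBall (hrank : 1 < Module.rank ℝ E) :
    IsPreconnected (closedBall (0 : E) 1)ᶜ := by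
  have h1 : IsPreconnected (Ioi (1:ℝ) ×ˢ sphere (0 : E) 1) :=
    isPreconnected_Ioi.prod (isPreconnected_sphere hrank 0 1)
  have h2 : (closedBall (0 : E) 1)ᶜ =
      (fun p : ℝ × E => p.1 • p.2) '' (Ioi (1:ℝ) ×ˢ sphere (0 : E) 1) := by
    ext x
    constructor
    · intro hx
      rw [mem_compl_iff, mem_closedBall_zero_iff, not_le] at hx
      have hpos : 0 < ‖x‖ := by linarith
      refine ⟨(‖x‖, ‖x‖⁻¹ • x), ⟨hx, ?_⟩, ?_⟩
      · rw [mem_sphere_zero_iff_norm, norm_smul, norm_inv, norm_norm, inv_mul_cancel₀ hpos.ne']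
      · show ‖x‖ • ‖x‖⁻¹ • x = x
        rw [smul_smul, mul_inv_cancel₀ hpos.ne', one_smul]
    · rintro ⟨⟨s, y⟩, ⟨hs, hy⟩, rfl⟩
      rw [mem_sphere_zero_iff_norm] at hy
      rw [mem_compl_iff, mem_closedBall_zero_iff, not_le]
      show 1 < ‖s • y‖
      have hs' : (1:ℝ) < s := hs
      rw [norm_smul, hy, mul_one, Real.norm_of_nonneg (by linarith)]
      exact hs'
  rw [h2]
  exact h1.image _ (by fun_prop)

theorem jball_std {n : ℕ} (hn : 1 < n) : JBall (closedBall (0 : Fin n → ℝ) 1) (sphere 0 1) := by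
  have : Nonempty (Fin n) := ⟨⟨0, by omega⟩⟩
  exact
  { compact := isCompact_closedBall _ _
    frontier_eq := frontier_closedBall _ one_ne_zero
    int_conn := by
      rw [interior_closedBall _ one_ne_zero]; exact (convex_ball _ _).isPreconnected
    int_ne := by
      rw [interior_closedBall _ one_ne_zero]; exact nonempty_ball.2 one_pos
    ext_conn := isPreconnected_compl_closedBall (by
      rw [rank_fun', Fintype.card_fin]
      exact_mod_cast hn)
    closure_int := by
      rw [interior_closedBall _ one_ne_zero, closure_ball _ one_ne_zero]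
    lts := by
      intro x _ U hU
      obtain ⟨ρ, hρ, hb⟩ := Metric.mem_nhds_iff.1 hU
      exact ⟨ball x (min ρ 1), ball_mem_nhds _ (lt_min hρ one_pos),
        (ball_subset_ball (min_le_left _ _)).trans hb,
        isPreconnected_ball_diff (lt_min hρ one_pos) (min_le_right _ _)⟩ }

/-- image of a Jordan ball under a homeomorphism of the space -/
theorem JBall.image {D C : Set E} (h : JBall D C) {F : Type*} [NormedAddCommGroup F]
    [NormedSpace ℝ F] (e : E ≃ₜ F) : JBall (e '' D) (e '' C) where
  compact := h.compact.image e.continuous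
  frontier_eq := by rw [← e.image_frontier, h.frontier_eq]
  int_conn := by rw [← e.image_interior]; exact h.int_conn.image _ e.continuous.continuousOn
  int_ne := by rw [← e.image_interior]; exact h.int_ne.image _
  ext_conn := by rw [← image_compl_eq e.bijective]; exact h.ext_conn.image _ e.continuous.continuousOn
  closure_int := by rw [← e.image_interior, ← e.image_closure, h.closure_int]
  lts := by
    rintro _ ⟨x, hx, rfl⟩ U hU
    obtain ⟨V, hV, hVU, hVc⟩ := h.lts x hx (e ⁻¹' U) (e.continuous.continuousAt hU)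
    refine ⟨e '' V, e.isOpenMap.image_mem_nhds hV, ?_, ?_⟩
    · rintro _ ⟨y, hy, rfl⟩; exact hVU hy
    · rw [← image_sdiff e.injective]; exact hVc.image _ e.continuous.continuousOn

end P073.GB200
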