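import Vale.Agent.P073.GB200.Iso

/-!
# P073, block GB3: **SpecCut**
-/

set_option linter.unusedSectionVars false

open Set Metric Topology Filter

namespace P073.GB200

open P073 P073.PR720 P073.GB73 P073.GB932
open Vale.Agent.P073.St (V)

variable {Vx B J I : Type} {e0 e1 : B → Vx} {inc : B → J → Prop} {qC : J → I → Prop} {Ω : Set V}
  {K : Cx3 e0 e1 inc qC Ω} {P : Set B}

/-- a map agreeing with a bijection of an arc onto itself, with a set cut out -/
theorem image_cut {a : Set V} (χ : ConHomeo a a) {f : V → V} (hf : EqOn f χ.toFun a)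
    {R A : Set V} (h : ∀ x ∈ a, x ∈ R ↔ χ.toFun x ∈ A) : f '' (a ∩ R) = a ∩ A := by
  apply Subset.antisymm
  · rintro _ ⟨x, ⟨hx, hxR⟩, rfl⟩
    rw [hf hx]
    exact ⟨χ.mapsTo hx, (h x hx).1 hxR⟩
  · rintro z ⟨hz, hzA⟩
    have hm := χ.mapsTo_inv hz
    refine ⟨χ.invFun z, ⟨hm, (h _ hm).2 ?_⟩, ?_⟩
    · rw [χ.right_inv hz]; exact hzA
    · rw [hf hm, χ.right_inv hz]

namespace Comp

variable {R A : Set V} {p y : B → V} {χ : (b : B) → ConHomeo (K.arc b) (K.arc b)}

/-- **Two bodies cutting the complex along the same pattern are equivalent.** -/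
theorem exists_iso (h : Comp K R A P p y χ) : ∃ g : ConHomeo Ω Ω,
    (∀ b, EqOn g.toFun (χ b).toFun (K.arc b)) ∧ (∀ j, g.toFun '' K.tile j = K.tile j) ∧
    (∀ c, g.toFun '' K.cell c = K.cell c) ∧
    (∀ c, Disjoint (K.cell c) (frontier R) → ∀ x ∈ K.cell c, g.toFun x = x) ∧
    g.toFun '' R = A ∧ g.toFun '' frontier R = frontier A := by
  have aR := h.hR.arcs
  have aA := h.hA.arcs
  obtain ⟨φ0, a0, t0, c0⟩ := h.exists_phi0
  -- the pairs of crossed edges
  have htwo : ∀ j : {j // CrT inc P j}, ∃ b b' : B, b ≠ b' ∧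
      {b | inc b j.1 ∧ b ∈ P} = {b, b'} := fun j => (h.pat.two j.1).resolve_left j.2
  choose f0 f1 hne hf using htwo
  have hf0 : ∀ j, f0 j ∈ P := fun j => by
    have : f0 j ∈ {b | inc b j.1 ∧ b ∈ P} := by rw [hf j]; exact Or.inl rfl
    exact this.2
  have hf1 : ∀ j, f1 j ∈ P := fun j => by
    have : f1 j ∈ {b | inc b j.1 ∧ b ∈ P} := by rw [hf j]; exact Or.inr rfl
    exact this.2
  -- stage one
  obtain ⟨φ1, e1, i1⟩ := attach (Ω := Ω) (Ω' := Ω) φ0 X0_sub X0_sub (fun _ => 1)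
    (C1 K P R) (fun j => {p (f0 j), p (f1 j)}) (C1 K P A) (fun j => {y (f0 j), y (f1 j)})
    (fun j => aR.arc j.1 _ _ (hne j) (hf j)) (fun j => aA.arc j.1 _ _ (hne j) (hf j))
    (fun j => by
      rw [image_pair, a0 (f0 j) (Cr.q_arc aR.cr (hf0 j)), a0 (f1 j) (Cr.q_arc aR.cr (hf1 j)),
        h.on _ (hf0 j), h.on _ (hf1 j)])
    (fun j => C1_inter_X0 aR j (hf j)) (fun j => C1_inter_X0 aA j (hf j))
    (fun i j hij => C1_inter_C1 hij) (fun i j hij => C1_inter_C1 hij)
    C1_sub C1_sub rc_X0 rc_X0 lf_C1 lf_C1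
  have e1' : ∀ {Z : Set V}, Z ⊆ X0 K P → EqOn φ1.toFun φ0.toFun Z := fun hZ => e1.mono hZ
  have arc0 : ∀ b, K.arc b ⊆ X0 K P := fun b z hz => mem_X0.2 (Or.inl ⟨b, hz⟩)
  have a1 : ∀ b, EqOn φ1.toFun (χ b).toFun (K.arc b) := fun b x hx => by
    rw [e1 (arc0 b hx), a0 b hx]
  -- images of the cut boundaries of the faces
  have bdin : ∀ j, φ1.toFun '' (K.toCx2.bd j ∩ R) = K.toCx2.bd j ∩ A := by
    intro j
    show φ1.toFun '' ((⋃ b ∈ {b | inc b j}, K.arc b) ∩ R) = (⋃ b ∈ {b | inc b j}, K.arc b) ∩ A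
    rw [iUnion₂_inter, iUnion₂_inter, image_iUnion₂]
    exact iUnion₂_congr fun b _ => image_cut (χ b) (a1 b) fun x hx => (h.half b x hx).1
  have bdout : ∀ j, φ1.toFun '' (K.toCx2.bd j \ interior R) = K.toCx2.bd j \ interior A := by
    intro j
    rw [Set.sdiff_eq, Set.sdiff_eq]
    show φ1.toFun '' ((⋃ b ∈ {b | inc b j}, K.arc b) ∩ (interior R)ᶜ) =
      (⋃ b ∈ {b | inc b j}, K.arc b) ∩ (interior A)ᶜ
    rw [iUnion₂_inter, iUnion₂_inter, image_iUnion₂]
    exact iUnion₂_congr fun b _ => image_cut (χ b) (a1 b) fun x hx =>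
      not_congr (h.half b x hx).2
  have frT : ∀ j, φ1.toFun '' (K.tile j ∩ frontier R) = K.tile j ∩ frontier A := by
    intro j
    by_cases hj : CrT inc P j
    · exact i1 ⟨j, hj⟩
    · rw [(aR.off_tile j (not_crT hj)).inter_eq, (aA.off_tile j (not_crT hj)).inter_eq,
        image_empty]
  -- stage two
  obtain ⟨φ2, e2, i2⟩ := attach (Ω := Ω) (Ω' := Ω) φ1 X1_sub X1_sub
    (fun i => Sum.elim (fun _ => 2) (fun _ => 2) i)
    (C2 K P R) (B2 K P R) (C2 K P A) (B2 K P A) (C2_ball h.hR) (C2_ball h.hA)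
    (by
      rintro (⟨j, _ | _⟩ | c)
      · show φ1.toFun '' ((K.toCx2.bd j.1 \ interior R) ∪ (K.tile j.1 ∩ frontier R)) =
          (K.toCx2.bd j.1 \ interior A) ∪ (K.tile j.1 ∩ frontier A)
        rw [image_union, bdout, frT]
      · show φ1.toFun '' ((K.toCx2.bd j.1 ∩ R) ∪ (K.tile j.1 ∩ frontier R)) =
          (K.toCx2.bd j.1 ∩ A) ∪ (K.tile j.1 ∩ frontier A)
        rw [image_union, bdin, frT]
      · show φ1.toFun '' (⋃ j ∈ {j | qC j c.1}, K.tile j ∩ frontier R) =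
          ⋃ j ∈ {j | qC j c.1}, K.tile j ∩ frontier A
        rw [image_iUnion₂]
        exact iUnion₂_congr fun j _ => frT j)
    (C2_inter_X1 aR) (C2_inter_X1 aA) (C2_inter_C2 aR) (C2_inter_C2 aA) C2_sub C2_sub
    (rc_X1 aR) (rc_X1 aA) lf_C2 lf_C2
  have X01 : X0 K P ⊆ X1 K P R := subset_union_left
  -- on uncut pieces the map is the identity
  have t2 : ∀ j, ¬ CrT inc P j → ∀ x ∈ K.tile j, φ2.toFun x = x := by
    intro j hj x hx
    have hx0 : x ∈ X0 K P := mem_X0.2 (Or.inr (Or.inl ⟨j, hj, hx⟩))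
    rw [e2 (X01 hx0), e1 hx0, t0 j hj x hx]
  have c2 : ∀ c, ¬ CrC inc qC P c → ∀ x ∈ K.cell c, φ2.toFun x = x := by
    intro c hc x hx
    have hx0 : x ∈ X0 K P := mem_X0.2 (Or.inr (Or.inr ⟨c, hc, hx⟩))
    rw [e2 (X01 hx0), e1 hx0, c0 c hc x hx]
  have tin : ∀ j, φ2.toFun '' (K.tile j ∩ R) = K.tile j ∩ A := by
    intro j
    by_cases hj : CrT inc P j
    · exact i2 (Sum.inl (⟨j, hj⟩, true))
    · rw [image_congr fun x hx => t2 j hj x hx.1, image_id']
      exact (h.tile_side hj).1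
  have tout : ∀ j, φ2.toFun '' (K.tile j \ interior R) = K.tile j \ interior A := by
    intro j
    by_cases hj : CrT inc P j
    · exact i2 (Sum.inl (⟨j, hj⟩, false))
    · rw [image_congr fun x hx => t2 j hj x hx.1, image_id']
      exact (h.tile_side hj).2
  have dfr : ∀ c, φ2.toFun '' (K.cell c ∩ frontier R) = K.cell c ∩ frontier A := by
    intro c
    by_cases hc : CrC inc qC P c
    · exact i2 (Sum.inr ⟨c, hc⟩)
    · have hc' : ∀ j, qC j c → {b | inc b j ∧ b ∈ P} = ∅ := fun j hj =>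
        not_crT fun h' => hc ⟨j, hj, h'⟩
      rw [(h.hR.off_cell c hc').inter_eq, (h.hA.off_cell c hc').inter_eq, image_empty]
  -- stage three
  obtain ⟨φ3, e3, i3⟩ := attach (Ω := Ω) (Ω' := Ω) φ2 X2_sub X2_sub (fun _ => 3)
    (C3 K P R) (B3 K P R) (C3 K P A) (B3 K P A) (C3_ball h.hR) (C3_ball h.hA)
    (by
      rintro ⟨c, _ | _⟩
      · show φ2.toFun '' ((⋃ j ∈ {j | qC j c.1}, K.tile j \ interior R) ∪
            (K.cell c.1 ∩ frontier R)) =
          (⋃ j ∈ {j | qC j c.1}, K.tile j \ interior A) ∪ (K.cell c.1 ∩ frontier A)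
        rw [image_union, dfr, image_iUnion₂]
        congr 1
        exact iUnion₂_congr fun j _ => tout j
      · show φ2.toFun '' ((⋃ j ∈ {j | qC j c.1}, K.tile j ∩ R) ∪
            (K.cell c.1 ∩ frontier R)) =
          (⋃ j ∈ {j | qC j c.1}, K.tile j ∩ A) ∪ (K.cell c.1 ∩ frontier A)
        rw [image_union, dfr, image_iUnion₂]
        congr 1
        exact iUnion₂_congr fun j _ => tin j)
    (C3_inter_X2 aR) (C3_inter_X2 aA) (C3_inter_C3 aR) (C3_inter_C3 aA) C3_sub C3_sub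
    (rc_X2 aR) (rc_X2 aA) lf_C3 lf_C3
  let g : ConHomeo Ω Ω := φ3.cast (X3_eq aR) (X3_eq aA)
  have hg : g.toFun = φ3.toFun := rfl
  have X12 : X1 K P R ⊆ X2 K P R := subset_union_left
  have g2 : EqOn g.toFun φ2.toFun (X2 K P R) := e3
  have garc : ∀ b, EqOn g.toFun (χ b).toFun (K.arc b) := fun b x hx => by
    rw [g2 (X12 (X01 (arc0 b hx))), e2 (X01 (arc0 b hx)), a1 b hx]
  have gin : ∀ j, g.toFun '' (K.tile j ∩ R) = K.tile j ∩ A := fun j => by
    rw [(g2.mono (inter_subset_left.trans (tile_sub_X2 aR j))).image_eq, tin]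
  have gout : ∀ j, g.toFun '' (K.tile j \ interior R) = K.tile j \ interior A := fun j => by
    rw [(g2.mono (Set.sdiff_subset.trans (tile_sub_X2 aR j))).image_eq, tout]
  have gid : ∀ c, ¬ CrC inc qC P c → ∀ x ∈ K.cell c, g.toFun x = x := by
    intro c hc x hx
    have hx0 : x ∈ X0 K P := mem_X0.2 (Or.inr (Or.inr ⟨c, hc, hx⟩))
    rw [g2 (X12 (X01 hx0)), c2 c hc x hx]
  have gcin : ∀ c, g.toFun '' (K.cell c ∩ R) = K.cell c ∩ A := by
    intro c
    by_cases hc : CrC inc qC P c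
    · exact i3 (⟨c, hc⟩, true)
    · rw [image_congr fun x hx => gid c hc x hx.1, image_id']
      exact (h.cell_side hc).1
  have gcout : ∀ c, g.toFun '' (K.cell c \ interior R) = K.cell c \ interior A := by
    intro c
    by_cases hc : CrC inc qC P c
    · exact i3 (⟨c, hc⟩, false)
    · rw [image_congr fun x hx => gid c hc x hx.1, image_id']
      exact (h.cell_side hc).2
  have gfr : ∀ c, g.toFun '' (K.cell c ∩ frontier R) = K.cell c ∩ frontier A := by
    intro c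
    by_cases hc : CrC inc qC P c
    · have hs : K.cell c ∩ frontier R ⊆ X2 K P R := fun z hz =>
        Or.inr (mem_iUnion.2 ⟨Sum.inr ⟨c, hc⟩, hz⟩)
      rw [(g2.mono hs).image_eq, dfr]
    · have hc' : ∀ j, qC j c → {b | inc b j ∧ b ∈ P} = ∅ := fun j hj =>
        not_crT fun h' => hc ⟨j, hj, h'⟩
      rw [(h.hR.off_cell c hc').inter_eq, (h.hA.off_cell c hc').inter_eq, image_empty]
  -- decomposition of a set into its parts
  have split : ∀ (Z S : Set V), (Z ∩ S) ∪ (Z \ interior S) = Z := by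
    intro Z S
    ext z
    constructor
    · rintro (h' | h')
      · exact h'.1
      · exact h'.1
    · intro hz
      by_cases hi : z ∈ interior S
      · exact Or.inl ⟨hz, interior_subset hi⟩
      · exact Or.inr ⟨hz, hi⟩
  have cov : ∀ S : Set V, S ⊆ Ω → S = ⋃ c, K.cell c ∩ S := by
    intro S hS
    rw [← iUnion_inter, K.cover, inter_eq_right.2 hS]
  refine ⟨g, garc, fun j => ?_, fun c => ?_, fun c hc => ?_, ?_, ?_⟩
  · rw [← split (K.tile j) R, image_union, gin, gout, split, split]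
  · rw [← split (K.cell c) R, image_union, gcin, gcout, split, split]
  · refine gid c ?_
    rintro ⟨j, hjc, hj⟩
    obtain ⟨b, hb, hbP⟩ := nonempty_iff_ne_empty.2 hj
    exact Set.disjoint_left.1 hc (Cx.tile_sub_cell K hjc
      (K.toCx2.arc_subset_tile hb (Cr.q_arc aR.cr hbP))) (Cr.q_fr aR.cr hbP)
  · have e := cov R h.hR.sub
    have e' := cov A h.hA.sub
    calc g.toFun '' R = g.toFun '' (⋃ c, K.cell c ∩ R) := congrArg _ e
      _ = ⋃ c, K.cell c ∩ A := by rw [image_iUnion]; exact iUnion_congr gcin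
      _ = A := e'.symm
  · have e := cov (frontier R) (aR.closed.frontier_subset.trans h.hR.sub)
    have e' := cov (frontier A) (aA.closed.frontier_subset.trans h.hA.sub)
    calc g.toFun '' frontier R = g.toFun '' (⋃ c, K.cell c ∩ frontier R) := congrArg _ e
      _ = ⋃ c, K.cell c ∩ frontier A := by rw [image_iUnion]; exact iUnion_congr gfr
      _ = frontier A := e'.symm

end Comp

end P073.GB200
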