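import Vale.Agent.P073.GB200.DomA

/-!
# P073, block GB3: the filtration of the complex cut by a body
-/

set_option linter.unusedSectionVars false

open Set Metric Topology Filter

namespace P073.GB200

open P073 P073.PR720 P073.GB73
open Vale.Agent.P073.St (V)

variable {Vx B J I : Type} {e0 e1 : B → Vx} {inc : B → J → Prop} {qC : J → I → Prop} {Ω : Set V}
  {K : Cx3 e0 e1 inc qC Ω} {P : Set B}

/-- the pieces which are not cut: arcs, uncrossed faces, uncrossed cells -/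
def XI (K : Cx3 e0 e1 inc qC Ω) (P : Set B) :
    B ⊕ ({j // ¬ CrT inc P j} ⊕ {c // ¬ CrC inc qC P c}) → Set V :=
  Sum.elim K.arc (Sum.elim (fun j => K.tile j.1) (fun c => K.cell c.1))

/-- their union -/
def X0 (K : Cx3 e0 e1 inc qC Ω) (P : Set B) : Set V := ⋃ i, XI K P i

theorem lf_XI : LF (XI K P) Ω :=
  LF.sum (Cx.lf_arc K) (LF.sum (LF.comp (Cx.lf_tile K) Subtype.val_injective)
    (LF.comp K.clf Subtype.val_injective))

theorem XI_closed (i) : IsClosed (XI K P i) := by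
  rcases i with b | j | c
  · exact Cx.arc_closed K b
  · exact Cx.tile_closed K j.1
  · exact Cx.cell_closed K c.1

theorem XI_sub (i) : XI K P i ⊆ Ω := by
  rcases i with b | j | c
  · exact Cx.arc_sub K b
  · exact Cx.tile_sub K j.1
  · exact Cx.cell_sub K c.1

theorem X0_sub : X0 K P ⊆ Ω := iUnion_subset XI_sub

theorem rc_X0 : RC Ω (X0 K P) := RC.iUnion lf_XI XI_closed

theorem mem_X0 {z : V} : z ∈ X0 K P ↔ (∃ b, z ∈ K.arc b) ∨ (∃ j, ¬ CrT inc P j ∧ z ∈ K.tile j) ∨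
    ∃ c, ¬ CrC inc qC P c ∧ z ∈ K.cell c := by
  unfold X0
  rw [mem_iUnion]
  constructor
  · rintro ⟨b | j | c, h⟩
    · exact Or.inl ⟨b, h⟩
    · exact Or.inr (Or.inl ⟨j.1, j.2, h⟩)
    · exact Or.inr (Or.inr ⟨c.1, c.2, h⟩)
  · rintro (⟨b, h⟩ | ⟨j, hj, h⟩ | ⟨c, hc, h⟩)
    · exact ⟨Sum.inl b, h⟩
    · exact ⟨Sum.inr (Sum.inl ⟨j, hj⟩), h⟩
    · exact ⟨Sum.inr (Sum.inr ⟨c, hc⟩), h⟩

theorem bd_sub_X0 (j : J) : K.toCx2.bd j ⊆ X0 K P := by
  intro z hz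
  obtain ⟨b, -, hb⟩ := (Cx.mem_bd K).1 hz
  exact mem_X0.2 (Or.inl ⟨b, hb⟩)

/-- a point of a crossed face in `X0` is on its boundary -/
theorem T0 {j : J} (hj : CrT inc P j) {z : V} (hz : z ∈ K.tile j) (h0 : z ∈ X0 K P) :
    z ∈ K.toCx2.bd j := by
  have ht : ∀ s, ¬ CrT inc P s → z ∈ K.tile s → z ∈ K.toCx2.bd j := by
    intro s hs hzs
    have hne : j ≠ s := by rintro rfl; exact hs hj
    exact Cx.tile_tile' K hne hz hzs
  rcases mem_X0.1 h0 with ⟨b, hb⟩ | ⟨s, hs, hzs⟩ | ⟨c, hc, hzc⟩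
  · exact Cx.tile_arc' K hz hb
  · exact ht s hs hzs
  · obtain ⟨s, hs, hzs⟩ := Cx.cell_tile' K hzc hz
    exact ht s (fun h => hc ⟨s, hs, h⟩) hzs

/-- a point of a crossed cell in `X0` is on its boundary -/
theorem C0 {c : I} (hc : CrC inc qC P c) {z : V} (hz : z ∈ K.cell c) (h0 : z ∈ X0 K P) :
    ∃ s, qC s c ∧ z ∈ K.tile s := by
  rcases mem_X0.1 h0 with ⟨b, hb⟩ | ⟨s, -, hzs⟩ | ⟨d, hd, hzd⟩
  · exact Cx.cell_arc K hz hb
  · exact Cx.cell_tile' K hz hzs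
  · have hne : c ≠ d := by rintro rfl; exact hd hc
    exact Cx.cell_cell' K hne hz hzd

section

variable (K P) (S : Set V)

/-- first stage -/
def C1 (j : {j // CrT inc P j}) : Set V := K.tile j.1 ∩ frontier S

/-- first stage -/
def X1 : Set V := X0 K P ∪ ⋃ j, C1 K P S j

/-- half faces and discs -/
def C2 : ({j // CrT inc P j} × Bool) ⊕ {c // CrC inc qC P c} → Set V
  | Sum.inl (j, true) => K.tile j.1 ∩ S
  | Sum.inl (j, false) => K.tile j.1 \ interior S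
  | Sum.inr c => K.cell c.1 ∩ frontier S

/-- their boundaries -/
def B2 : ({j // CrT inc P j} × Bool) ⊕ {c // CrC inc qC P c} → Set V
  | Sum.inl (j, true) => (K.toCx2.bd j.1 ∩ S) ∪ (K.tile j.1 ∩ frontier S)
  | Sum.inl (j, false) => (K.toCx2.bd j.1 \ interior S) ∪ (K.tile j.1 ∩ frontier S)
  | Sum.inr c => ⋃ j ∈ {j | qC j c.1}, K.tile j ∩ frontier S

/-- second stage -/
def X2 : Set V := X1 K P S ∪ ⋃ i, C2 K P S i

/-- half cells -/
def C3 : {c // CrC inc qC P c} × Bool → Set V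
  | (c, true) => K.cell c.1 ∩ S
  | (c, false) => K.cell c.1 \ interior S

/-- their boundaries -/
def B3 : {c // CrC inc qC P c} × Bool → Set V
  | (c, true) => (⋃ j ∈ {j | qC j c.1}, K.tile j ∩ S) ∪ (K.cell c.1 ∩ frontier S)
  | (c, false) => (⋃ j ∈ {j | qC j c.1}, K.tile j \ interior S) ∪ (K.cell c.1 ∩ frontier S)

end

variable {S : Set V} {q : B → V}

theorem mem_X1 {z : V} : z ∈ X1 K P S ↔ z ∈ X0 K P ∨ ∃ j, CrT inc P j ∧ z ∈ K.tile j ∧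
    z ∈ frontier S := by
  unfold X1
  constructor
  · rintro (h | h)
    · exact Or.inl h
    · obtain ⟨j, hj⟩ := mem_iUnion.1 h
      exact Or.inr ⟨j.1, j.2, hj.1, hj.2⟩
  · rintro (h | ⟨j, hj, hz, hf⟩)
    · exact Or.inl h
    · exact Or.inr (mem_iUnion.2 ⟨⟨j, hj⟩, hz, hf⟩)

theorem T1 {j : J} (hj : CrT inc P j) {z : V} (hz : z ∈ K.tile j) (h1 : z ∈ X1 K P S) :
    z ∈ K.toCx2.bd j ∨ z ∈ frontier S := by
  rcases mem_X1.1 h1 with h | ⟨k, hk, hzk, hf⟩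
  · exact Or.inl (T0 hj hz h)
  · exact Or.inr hf

theorem mem_X1_tile (h : Arcs K S P q) {j : J} {z : V} (hz : z ∈ K.tile j)
    (hf : z ∈ frontier S) : z ∈ X1 K P S := mem_X1.2 (Or.inr ⟨j, h.crT hz hf, hz, hf⟩)

theorem CC1 {c : I} (hc : CrC inc qC P c) {z : V} (hz : z ∈ K.cell c) (h1 : z ∈ X1 K P S) :
    ∃ s, qC s c ∧ z ∈ K.tile s := by
  rcases mem_X1.1 h1 with h | ⟨k, hk, hzk, hf⟩
  · exact C0 hc hz h
  · exact Cx.cell_tile' K hz hzk

theorem C1_inter_X0 (h : Arcs K S P q) (j : {j // CrT inc P j}) {b b' : B}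
    (hb : {b | inc b j.1 ∧ b ∈ P} = {b, b'}) : C1 K P S j ∩ X0 K P = {q b, q b'} := by
  rw [← Cr.bd_frontier h.cr hb]
  apply Subset.antisymm
  · rintro z ⟨⟨hz, hf⟩, h0⟩
    exact ⟨T0 j.2 hz h0, hf⟩
  · rintro z ⟨hz, hf⟩
    exact ⟨⟨K.toCx2.bd_subset j.1 hz, hf⟩, bd_sub_X0 j.1 hz⟩

theorem C1_inter_C1 {j k : {j // CrT inc P j}} (hjk : j ≠ k) :
    C1 K P S j ∩ C1 K P S k ⊆ X0 K P := by
  rintro z ⟨⟨h1, -⟩, h2, -⟩
  exact bd_sub_X0 j.1 (Cx.tile_tile' K (fun h => hjk (Subtype.ext h)) h1 h2)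

theorem C1_closed (_h : Arcs K S P q) (j : {j // CrT inc P j}) : IsClosed (C1 K P S j) :=
  (Cx.tile_closed K j.1).inter isClosed_frontier

theorem C1_sub (j : {j // CrT inc P j}) : C1 K P S j ⊆ Ω :=
  inter_subset_left.trans (Cx.tile_sub K j.1)

theorem lf_C1 : LF (C1 K P S) Ω :=
  LF.subset (LF.comp (Cx.lf_tile K) Subtype.val_injective) fun _ => inter_subset_left

theorem X1_sub : X1 K P S ⊆ Ω := union_subset X0_sub (iUnion_subset C1_sub)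

theorem rc_X1 (h : Arcs K S P q) : RC Ω (X1 K P S) :=
  rc_X0.union (RC.iUnion lf_C1 (C1_closed h))

theorem C2_ball (h : DomCut K S P q) (i) :
    ConBall (Sum.elim (fun _ => 2) (fun _ => 2) i) (C2 K P S i) (B2 K P S i) := by
  rcases i with ⟨j, _ | _⟩ | c
  · exact h.tile_out j.1 j.2
  · exact h.tile_in j.1 j.2
  · exact h.disc c.1 c.2

theorem C2_inter_X1 (h : Arcs K S P q) (i) : C2 K P S i ∩ X1 K P S = B2 K P S i := by
  have hcl := h.closed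
  rcases i with ⟨j, _ | _⟩ | c
  · show (K.tile j.1 \ interior S) ∩ X1 K P S =
      (K.toCx2.bd j.1 \ interior S) ∪ (K.tile j.1 ∩ frontier S)
    apply Subset.antisymm
    · rintro z ⟨⟨hz, hi⟩, h1⟩
      rcases T1 j.2 hz h1 with h' | h'
      · exact Or.inl ⟨h', hi⟩
      · exact Or.inr ⟨hz, h'⟩
    · rintro z (⟨hz, hi⟩ | ⟨hz, hf⟩)
      · exact ⟨⟨K.toCx2.bd_subset _ hz, hi⟩, mem_X1.2 (Or.inl (bd_sub_X0 j.1 hz))⟩
      · exact ⟨⟨hz, hf.2⟩, mem_X1_tile h hz hf⟩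
  · show (K.tile j.1 ∩ S) ∩ X1 K P S = (K.toCx2.bd j.1 ∩ S) ∪ (K.tile j.1 ∩ frontier S)
    apply Subset.antisymm
    · rintro z ⟨⟨hz, hi⟩, h1⟩
      rcases T1 j.2 hz h1 with h' | h'
      · exact Or.inl ⟨h', hi⟩
      · exact Or.inr ⟨hz, h'⟩
    · rintro z (⟨hz, hi⟩ | ⟨hz, hf⟩)
      · exact ⟨⟨K.toCx2.bd_subset _ hz, hi⟩, mem_X1.2 (Or.inl (bd_sub_X0 j.1 hz))⟩
      · exact ⟨⟨hz, hcl.frontier_subset hf⟩, mem_X1_tile h hz hf⟩
  · show (K.cell c.1 ∩ frontier S) ∩ X1 K P S = ⋃ j ∈ {j | qC j c.1}, K.tile j ∩ frontier S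
    apply Subset.antisymm
    · rintro z ⟨⟨hz, hf⟩, h1⟩
      obtain ⟨s, hs, hzs⟩ := CC1 c.2 hz h1
      exact mem_iUnion₂.2 ⟨s, hs, hzs, hf⟩
    · intro z hz
      obtain ⟨s, hs, hzs, hf⟩ := mem_iUnion₂.1 hz
      exact ⟨⟨Cx.tile_sub_cell K hs hzs, hf⟩, mem_X1_tile h hzs hf⟩

theorem C2_inter_C2 (h : Arcs K S P q) (i j) (hij : i ≠ j) :
    C2 K P S i ∩ C2 K P S j ⊆ X1 K P S := by
  have hcl := h.closed
  -- points in one face
  have hsub : ∀ (j : {j // CrT inc P j}) (t : Bool), C2 K P S (Sum.inl (j, t)) ⊆ K.tile j.1 := by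
    intro j t
    cases t
    · exact Set.sdiff_subset
    · exact inter_subset_left
  have hff : ∀ (j : {j // CrT inc P j}), ∀ z ∈ C2 K P S (Sum.inl (j, true)),
      z ∈ C2 K P S (Sum.inl (j, false)) → z ∈ X1 K P S := by
    intro j z h1 h2
    have hf : z ∈ frontier S := ⟨subset_closure h1.2, h2.2⟩
    exact mem_X1_tile h h1.1 hf
  rintro z ⟨h1, h2⟩
  rcases i with ⟨j₁, t₁⟩ | c₁
  · rcases j with ⟨j₂, t₂⟩ | c₂
    · by_cases hj : j₁ = j₂
      · subst hj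
        cases t₁ <;> cases t₂
        · exact absurd rfl hij
        · exact hff j₁ z h2 h1
        · exact hff j₁ z h1 h2
        · exact absurd rfl hij
      · refine mem_X1.2 (Or.inl (bd_sub_X0 j₁.1 ?_))
        exact Cx.tile_tile' K (fun h => hj (Subtype.ext h)) (hsub _ _ h1) (hsub _ _ h2)
    · exact mem_X1_tile h (hsub _ _ h1) h2.2
  · rcases j with ⟨j₂, t₂⟩ | c₂
    · exact mem_X1_tile h (hsub _ _ h2) h1.2
    · have hne : c₁.1 ≠ c₂.1 := fun h => hij (by rw [Subtype.ext h])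
      obtain ⟨s, -, hs⟩ := Cx.cell_cell' K hne h1.1 h2.1
      exact mem_X1_tile h hs h1.2

theorem C2_closed (h : Arcs K S P q) (i) : IsClosed (C2 K P S i) := by
  rcases i with ⟨j, _ | _⟩ | c
  · exact (Cx.tile_closed K j.1).sdiff isOpen_interior
  · exact (Cx.tile_closed K j.1).inter h.closed
  · exact (Cx.cell_closed K c.1).inter isClosed_frontier

theorem C2_sub (i) : C2 K P S i ⊆ Ω := by
  rcases i with ⟨j, _ | _⟩ | c
  · exact Set.sdiff_subset.trans (Cx.tile_sub K j.1)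
  · exact inter_subset_left.trans (Cx.tile_sub K j.1)
  · exact inter_subset_left.trans (Cx.cell_sub K c.1)

theorem lf_C2 : LF (C2 K P S) Ω := by
  have h1 : LF (Sum.elim (fun p : {j // CrT inc P j} × Bool => K.tile p.1.1)
      (fun c : {c // CrC inc qC P c} => K.cell c.1)) Ω :=
    LF.sum (LF.bool (LF.comp (Cx.lf_tile K) Subtype.val_injective))
      (LF.comp K.clf Subtype.val_injective)
  refine LF.subset h1 ?_
  rintro (⟨j, _ | _⟩ | c)
  · exact Set.sdiff_subset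
  · exact inter_subset_left
  · exact inter_subset_left

theorem X2_sub : X2 K P S ⊆ Ω := union_subset X1_sub (iUnion_subset C2_sub)

theorem rc_X2 (h : Arcs K S P q) : RC Ω (X2 K P S) :=
  (rc_X1 h).union (RC.iUnion lf_C2 (C2_closed h))

theorem tile_sub_X2 (_h : Arcs K S P q) (j : J) : K.tile j ⊆ X2 K P S := by
  intro z hz
  by_cases hj : CrT inc P j
  · by_cases hi : z ∈ interior S
    · exact Or.inr (mem_iUnion.2 ⟨Sum.inl (⟨j, hj⟩, true), hz, interior_subset hi⟩)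
    · exact Or.inr (mem_iUnion.2 ⟨Sum.inl (⟨j, hj⟩, false), hz, hi⟩)
  · exact Or.inl (mem_X1.2 (Or.inl (mem_X0.2 (Or.inr (Or.inl ⟨j, hj, hz⟩)))))

theorem CC2 {c : I} (hc : CrC inc qC P c) {z : V} (hz : z ∈ K.cell c) (h2 : z ∈ X2 K P S) :
    (∃ s, qC s c ∧ z ∈ K.tile s) ∨ z ∈ frontier S := by
  rcases h2 with h | h
  · exact Or.inl (CC1 hc hz h)
  · obtain ⟨i, hi⟩ := mem_iUnion.1 h
    rcases i with ⟨j, _ | _⟩ | d
    · exact Or.inl (Cx.cell_tile' K hz hi.1)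
    · exact Or.inl (Cx.cell_tile' K hz hi.1)
    · exact Or.inr hi.2

theorem C3_ball (h : DomCut K S P q) (i) : ConBall 3 (C3 K P S i) (B3 K P S i) := by
  rcases i with ⟨c, _ | _⟩
  · exact h.cell_out c.1 c.2
  · exact h.cell_in c.1 c.2

theorem C3_inter_X2 (h : Arcs K S P q) (i) : C3 K P S i ∩ X2 K P S = B3 K P S i := by
  have hcl := h.closed
  have hfr : ∀ c : {c // CrC inc qC P c}, K.cell c.1 ∩ frontier S ⊆ X2 K P S := by
    intro c z hz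
    exact Or.inr (mem_iUnion.2 ⟨Sum.inr c, hz⟩)
  rcases i with ⟨c, _ | _⟩
  · show (K.cell c.1 \ interior S) ∩ X2 K P S =
      (⋃ j ∈ {j | qC j c.1}, K.tile j \ interior S) ∪ (K.cell c.1 ∩ frontier S)
    apply Subset.antisymm
    · rintro z ⟨⟨hz, hi⟩, h1⟩
      rcases CC2 c.2 hz h1 with ⟨s, hs, hzs⟩ | h'
      · exact Or.inl (mem_iUnion₂.2 ⟨s, hs, hzs, hi⟩)
      · exact Or.inr ⟨hz, h'⟩
    · rintro z (hz | ⟨hz, hf⟩)
      · obtain ⟨s, hs, hzs, hi⟩ := mem_iUnion₂.1 hz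
        exact ⟨⟨Cx.tile_sub_cell K hs hzs, hi⟩, tile_sub_X2 h s hzs⟩
      · exact ⟨⟨hz, hf.2⟩, hfr c ⟨hz, hf⟩⟩
  · show (K.cell c.1 ∩ S) ∩ X2 K P S =
      (⋃ j ∈ {j | qC j c.1}, K.tile j ∩ S) ∪ (K.cell c.1 ∩ frontier S)
    apply Subset.antisymm
    · rintro z ⟨⟨hz, hi⟩, h1⟩
      rcases CC2 c.2 hz h1 with ⟨s, hs, hzs⟩ | h'
      · exact Or.inl (mem_iUnion₂.2 ⟨s, hs, hzs, hi⟩)
      · exact Or.inr ⟨hz, h'⟩
    · rintro z (hz | ⟨hz, hf⟩)
      · obtain ⟨s, hs, hzs, hi⟩ := mem_iUnion₂.1 hz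
        exact ⟨⟨Cx.tile_sub_cell K hs hzs, hi⟩, tile_sub_X2 h s hzs⟩
      · exact ⟨⟨hz, hcl.frontier_subset hf⟩, hfr c ⟨hz, hf⟩⟩

theorem C3_inter_C3 (h : Arcs K S P q) (i j) (hij : i ≠ j) :
    C3 K P S i ∩ C3 K P S j ⊆ X2 K P S := by
  have hsub : ∀ (c : {c // CrC inc qC P c}) (t : Bool), C3 K P S (c, t) ⊆ K.cell c.1 := by
    intro c t
    cases t
    · exact Set.sdiff_subset
    · exact inter_subset_left
  have hff : ∀ (c : {c // CrC inc qC P c}), ∀ z ∈ C3 K P S (c, true),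
      z ∈ C3 K P S (c, false) → z ∈ X2 K P S := by
    intro c z h1 h2
    have hf : z ∈ frontier S := ⟨subset_closure h1.2, h2.2⟩
    exact Or.inr (mem_iUnion.2 ⟨Sum.inr c, h1.1, hf⟩)
  rintro z ⟨h1, h2⟩
  obtain ⟨c₁, t₁⟩ := i
  obtain ⟨c₂, t₂⟩ := j
  by_cases hc : c₁ = c₂
  · subst hc
    cases t₁ <;> cases t₂
    · exact absurd rfl hij
    · exact hff c₁ z h2 h1
    · exact hff c₁ z h1 h2
    · exact absurd rfl hij
  · obtain ⟨s, -, hs⟩ := Cx.cell_cell' K (fun h => hc (Subtype.ext h)) (hsub _ _ h1) (hsub _ _ h2)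
    exact tile_sub_X2 h s hs

theorem C3_sub (i) : C3 K P S i ⊆ Ω := by
  rcases i with ⟨c, _ | _⟩
  · exact Set.sdiff_subset.trans (Cx.cell_sub K c.1)
  · exact inter_subset_left.trans (Cx.cell_sub K c.1)

theorem lf_C3 : LF (C3 K P S) Ω := by
  have h1 : LF (fun p : {c // CrC inc qC P c} × Bool => K.cell p.1.1) Ω :=
    LF.bool (LF.comp K.clf Subtype.val_injective)
  refine LF.subset h1 ?_
  rintro ⟨c, _ | _⟩
  · exact Set.sdiff_subset
  · exact inter_subset_left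

theorem X3_eq (_h : Arcs K S P q) : X2 K P S ∪ ⋃ i, C3 K P S i = Ω := by
  apply Subset.antisymm (union_subset X2_sub (iUnion_subset C3_sub))
  intro z hz
  rw [← K.cover] at hz
  obtain ⟨c, hc⟩ := mem_iUnion.1 hz
  by_cases hcr : CrC inc qC P c
  · by_cases hi : z ∈ interior S
    · exact Or.inr (mem_iUnion.2 ⟨(⟨c, hcr⟩, true), hc, interior_subset hi⟩)
    · exact Or.inr (mem_iUnion.2 ⟨(⟨c, hcr⟩, false), hc, hi⟩)
  · exact Or.inl (Or.inl (mem_X1.2 (Or.inl (mem_X0.2 (Or.inr (Or.inr ⟨c, hcr, hc⟩))))))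

end P073.GB200
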