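import Vale.Agent.P073.GB200.Main

/-!
# P073, block GB3: the theorem `specCut`

`specCut` is `SpecCut` of `GB73/Spec.lean` with the additional hypothesis that the body `A0` is a
conical ball with boundary `frontier A0` (its convexity is not used).
-/

set_option linter.unusedSectionVars false

open Set Metric Topology Filter

namespace P073.GB200

open P073 P073.PR720 P073.GB73 P073.GB932
open Vale.Agent.P073.St (V)

/-- pull back of a body under a conical homeomorphism of open sets -/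
theorem pullback {Ω Λ A0 : Set V} (h : ConHomeo Ω Λ) (hΩ : IsOpen Ω) (hΛ : IsOpen Λ)
    (hA : IsCompact A0) (hsub : A0 ⊆ Λ) :
    IsCompact (h.symm.toFun '' A0) ∧ h.symm.toFun '' A0 ⊆ Ω ∧
    (∀ x ∈ Ω, x ∈ h.symm.toFun '' A0 ↔ h.toFun x ∈ A0) ∧
    (∀ x ∈ Ω, x ∈ interior (h.symm.toFun '' A0) ↔ h.toFun x ∈ interior A0) ∧
    (∀ x ∈ Ω, x ∈ frontier (h.symm.toFun '' A0) ↔ h.toFun x ∈ frontier A0) := by
  have hcomp : IsCompact (h.symm.toFun '' A0) :=
    hA.image_of_continuousOn (h.symm.cont.mono hsub)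
  have hs : h.symm.toFun '' A0 ⊆ Ω := by
    rintro _ ⟨z, hz, rfl⟩; exact h.symm.mapsTo (hsub hz)
  have h1 : ∀ x ∈ Ω, x ∈ h.symm.toFun '' A0 ↔ h.toFun x ∈ A0 := by
    intro x hx
    constructor
    · rintro ⟨z, hz, rfl⟩
      have : h.toFun (h.symm.toFun z) = z := h.right_inv (hsub hz)
      rw [this]; exact hz
    · intro hz
      exact ⟨h.toFun x, hz, h.left_inv hx⟩
  have h2 : ∀ x ∈ Ω, x ∈ interior (h.symm.toFun '' A0) ↔ h.toFun x ∈ interior A0 := by
    intro x hx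
    constructor
    · intro hi
      -- the image of the interior is open
      have hop : IsOpen (Λ ∩ h.invFun ⁻¹' interior (h.symm.toFun '' A0)) :=
        h.cont_inv.isOpen_inter_preimage hΛ isOpen_interior
      have hsub' : Λ ∩ h.invFun ⁻¹' interior (h.symm.toFun '' A0) ⊆ A0 := by
        rintro z ⟨hz, hz'⟩
        have := (h1 _ (h.mapsTo_inv hz)).1 (interior_subset hz')
        rwa [h.right_inv hz] at this
      refine interior_maximal hsub' hop ⟨h.mapsTo hx, ?_⟩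
      show h.invFun (h.toFun x) ∈ interior (h.symm.toFun '' A0)
      rw [h.left_inv hx]; exact hi
    · intro hi
      have hop : IsOpen (Ω ∩ h.toFun ⁻¹' interior A0) :=
        h.cont.isOpen_inter_preimage hΩ isOpen_interior
      refine interior_maximal ?_ hop ⟨hx, hi⟩
      rintro z ⟨hz, hz'⟩
      exact (h1 z hz).2 (interior_subset hz')
  refine ⟨hcomp, hs, h1, h2, fun x hx => ?_⟩
  rw [hcomp.isClosed.frontier_eq, hA.isClosed.frontier_eq]
  constructor
  · rintro ⟨k1, k2⟩; exact ⟨(h1 x hx).1 k1, fun h' => k2 ((h2 x hx).2 h')⟩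
  · rintro ⟨k1, k2⟩; exact ⟨(h1 x hx).2 k1, fun h' => k2 ((h2 x hx).1 h')⟩

/-- **(GB3)** -/
theorem specCut_aux (hA3 : AmbStd 3) (hJ : JordanSch 2 (sphere (0 : Fin 3 → ℝ) 1))
    {Vx B J I : Type} {e0 e1 : B → Vx} {inc : B → J → Prop} {qC : J → I → Prop} {Ω Λ : Set V}
    (K : Cx3 e0 e1 inc qC Ω) (h' : ConHomeo Ω Λ) (hΩ : IsOpen Ω) (hΛ : IsOpen Λ)
    (A0 : Set V) (P : Set B) (y : B → V) (R : Set V) (p : B → V)
    (hball : ConBall 3 A0 (frontier A0)) (hsub : A0 ⊆ Λ)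
    (hpat : Pat inc P) (hcr : Crosses K.toGraph h'.toFun A0 P y) (hR : DomCut K R P p)
    (hoff : ∀ j, {b | inc b j ∧ b ∈ P} = ∅ → Disjoint (h'.toFun '' K.tile j) (frontier A0))
    (harc : ∀ j b b', b ≠ b' → {b | inc b j ∧ b ∈ P} = {b, b'} →
        ConBall 1 (h'.toFun '' K.tile j ∩ frontier A0) {y b, y b'})
    (hcross : ∀ j c, qC j c → ∀ z ∈ h'.toFun '' (K.tile j \ K.toCx2.bd j) ∩ frontier A0,
        z ∈ closure (h'.toFun '' (K.cell c \ ⋃ s, K.tile s) ∩ frontier A0))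
    (hv : ∀ v, K.y v ∈ interior R ↔ h'.toFun (K.y v) ∈ interior A0)
    (χ : (b : B) → ConHomeo (K.arc b) (K.arc b))
    (h0 : ∀ b, (χ b).toFun (K.y (e0 b)) = K.y (e0 b))
    (h1 : ∀ b, (χ b).toFun (K.y (e1 b)) = K.y (e1 b))
    (hid : ∀ b ∉ P, ∀ x ∈ K.arc b, (χ b).toFun x = x)
    (hon : ∀ b ∈ P, h'.toFun ((χ b).toFun (p b)) = y b) :
    ∃ h2 : ConHomeo Ω Λ,
      (∀ b, ∀ x ∈ K.arc b, h2.toFun x = h'.toFun ((χ b).toFun x)) ∧
      (∀ j, h2.toFun '' K.tile j = h'.toFun '' K.tile j) ∧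
      (∀ c, h2.toFun '' K.cell c = h'.toFun '' K.cell c) ∧
      (∀ c, Disjoint (K.cell c) (frontier R) → EqOn h2.toFun h'.toFun (K.cell c)) ∧
      h2.toFun '' R = A0 ∧ h2.toFun '' (frontier R) = frontier A0 := by
  obtain ⟨hAc, hAΩ, mA, mI, mF⟩ := pullback h' hΩ hΛ hball.isCompact hsub
  set A := h'.symm.toFun '' A0 with hAdef
  have hfrsub : frontier A0 ⊆ Λ := hball.1.trans hsub
  have hfsub : frontier A ⊆ Ω := hAc.isClosed.frontier_subset.trans hAΩ
  -- images of the traces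
  have tr : ∀ Z : Set V, Z ⊆ Ω → h'.symm.toFun '' (h'.toFun '' Z ∩ frontier A0) =
      Z ∩ frontier A := by
    intro Z hZ
    apply Subset.antisymm
    · rintro _ ⟨_, ⟨⟨x, hx, rfl⟩, hf⟩, rfl⟩
      have : h'.symm.toFun (h'.toFun x) = x := h'.left_inv (hZ hx)
      rw [this]
      exact ⟨hx, (mF x (hZ hx)).2 hf⟩
    · rintro x ⟨hx, hf⟩
      exact ⟨h'.toFun x, ⟨mem_image_of_mem _ hx, (mF x (hZ hx)).1 hf⟩, h'.left_inv (hZ hx)⟩
  have hfr : h'.symm.toFun '' frontier A0 = frontier A := by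
    have e := tr Ω subset_rfl
    rw [h'.image_eq, inter_eq_right.2 hfrsub, inter_eq_right.2 hfsub] at e
    exact e
  have hballA : ConBall 3 A (frontier A) := by
    have := hball.image h'.symm hsub
    rwa [hfr] at this
  -- the crossings
  have hcrA : Crosses K.toGraph id A P (fun b => h'.symm.toFun (y b)) := by
    constructor
    · intro b hb
      rw [image_id, Set.disjoint_iff_inter_eq_empty, ← tr _ (Cx.arc_sub K b),
        (hcr.off b hb).inter_eq, image_empty]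
    · intro b hb
      rw [image_id, ← tr _ (Cx.arc_sub K b), hcr.on b hb, image_singleton]
    · intro b hb
      have k0 := Cx.arc_sub K b (Cx.vert0_mem K b)
      have k1 := Cx.arc_sub K b (Cx.vert1_mem K b)
      simp only [id]
      rcases hcr.ends b hb with ⟨l1, l2⟩ | ⟨l1, l2⟩
      · exact Or.inl ⟨(mI _ k0).2 l1, fun h => l2 ((mA _ k1).1 h)⟩
      · exact Or.inr ⟨(mI _ k1).2 l1, fun h => l2 ((mA _ k0).1 h)⟩
  have hArcs : Arcs K A P (fun b => h'.symm.toFun (y b)) := by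
    refine ⟨hAc.isClosed, hcrA, ?_, ?_⟩
    · intro j hj
      rw [Set.disjoint_iff_inter_eq_empty, ← tr _ (Cx.tile_sub K j), (hoff j hj).inter_eq,
        image_empty]
    · intro j b b' hbb hj
      have := (harc j b b' hbb hj).image h'.symm (inter_subset_right.trans hfrsub)
      rwa [tr _ (Cx.tile_sub K j), image_pair] at this
  have hcrossA : ∀ j c, qC j c → ∀ z ∈ (K.tile j \ K.toCx2.bd j) ∩ frontier A,
      z ∈ closure ((K.cell c \ ⋃ s, K.tile s) ∩ frontier A) := by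
    rintro j c hjc z ⟨hz, hf⟩
    have hzΩ : z ∈ Ω := hfsub hf
    have k1 := hcross j c hjc (h'.toFun z) ⟨mem_image_of_mem _ hz, (mF z hzΩ).1 hf⟩
    have hsubΛ : h'.toFun '' (K.cell c \ ⋃ s, K.tile s) ∩ frontier A0 ⊆ Λ :=
      inter_subset_right.trans hfrsub
    have k2 := ((h'.cont_inv (h'.toFun z) (h'.mapsTo hzΩ)).mono hsubΛ).mem_closure_image k1
    rw [h'.left_inv hzΩ] at k2
    have k3 : h'.invFun '' (h'.toFun '' (K.cell c \ ⋃ s, K.tile s) ∩ frontier A0) =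
      (K.cell c \ ⋃ s, K.tile s) ∩ frontier A :=
      tr _ (Set.sdiff_subset.trans (Cx.cell_sub K c))
    rwa [k3] at k2
  have hA : DomCut K A P (fun b => h'.symm.toFun (y b)) :=
    domCut hA3 hJ hΩ hballA hAΩ hpat hArcs hcrossA fun c hc =>
      circle_transfer hR.arcs hArcs hpat c (hR.disc c hc).conSphere
  have hvs : ∀ v, K.y v ∈ Ω := by
    intro v
    obtain ⟨b, hb | hb⟩ := K.vert_arc v
    · rw [hb]; exact Cx.arc_sub K b (Cx.vert0_mem K b)
    · rw [hb]; exact Cx.arc_sub K b (Cx.vert1_mem K b)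
  have hcomp : Comp K R A P p (fun b => h'.symm.toFun (y b)) χ :=
    { hR := hR
      hA := hA
      pat := hpat
      vert := fun v => by rw [mI _ (hvs v)]; exact hv v
      fix0 := h0
      fix1 := h1
      off := hid
      on := fun b hb => by
        have k1 := Cx.arc_sub K b ((χ b).mapsTo (Cr.q_arc hR.crosses hb))
        show (χ b).toFun (p b) = h'.invFun (y b)
        rw [← hon b hb, h'.left_inv k1] }
  obtain ⟨g, g1, g2, g3, g4, g5, g6⟩ := hcomp.exists_iso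
  have him : ∀ Z : Set V, (g.trans h').toFun '' Z = h'.toFun '' (g.toFun '' Z) := by
    intro Z
    rw [image_image]; rfl
  refine ⟨g.trans h', ?_, ?_, ?_, ?_, ?_, ?_⟩
  · intro b x hx
    show h'.toFun (g.toFun x) = _
    rw [g1 b hx]
  · intro j; rw [him, g2]
  · intro c; rw [him, g3]
  · intro c hc x hx
    show h'.toFun (g.toFun x) = _
    rw [g4 c hc x hx]
  · rw [him, g5]; exact image_symm_image h' hsub
  · rw [him, g6, ← hfr]; exact image_symm_image h' hfrsub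

/-- `SpecCut` with the additional hypothesis `ConBall 3 A0 (frontier A0)` -/
def SpecCut' : Prop :=
  ∀ (Vx B J I : Type) (e0 e1 : B → Vx) (inc : B → J → Prop) (qC : J → I → Prop) (Ω Λ : Set V)
    (K : Cx3 e0 e1 inc qC Ω) (h' : ConHomeo Ω Λ), IsOpen Ω → IsOpen Λ →
  ∀ (A0 : Set V) (P : Set B) (y : B → V) (R : Set V) (p : B → V),
    ConBall 3 A0 (frontier A0) → A0 ⊆ Λ →
    Pat inc P → Crosses K.toGraph h'.toFun A0 P y → DomCut K R P p →
    (∀ j, {b | inc b j ∧ b ∈ P} = ∅ → Disjoint (h'.toFun '' K.tile j) (frontier A0)) →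
    (∀ j b b', b ≠ b' → {b | inc b j ∧ b ∈ P} = {b, b'} →
        ConBall 1 (h'.toFun '' K.tile j ∩ frontier A0) {y b, y b'}) →
    (∀ j c, qC j c → ∀ z ∈ h'.toFun '' (K.tile j \ K.toCx2.bd j) ∩ frontier A0,
        z ∈ closure (h'.toFun '' (K.cell c \ ⋃ s, K.tile s) ∩ frontier A0)) →
    (∀ v, K.y v ∈ interior R ↔ h'.toFun (K.y v) ∈ interior A0) →
  ∀ χ : (b : B) → ConHomeo (K.arc b) (K.arc b),
    (∀ b, (χ b).toFun (K.y (e0 b)) = K.y (e0 b)) → (∀ b, (χ b).toFun (K.y (e1 b)) = K.y (e1 b)) →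
    (∀ b ∉ P, ∀ x ∈ K.arc b, (χ b).toFun x = x) → (∀ b ∈ P, h'.toFun ((χ b).toFun (p b)) = y b) →
    ∃ h2 : ConHomeo Ω Λ,
      (∀ b, ∀ x ∈ K.arc b, h2.toFun x = h'.toFun ((χ b).toFun x)) ∧
      (∀ j, h2.toFun '' K.tile j = h'.toFun '' K.tile j) ∧
      (∀ c, h2.toFun '' K.cell c = h'.toFun '' K.cell c) ∧
      (∀ c, Disjoint (K.cell c) (frontier R) → EqOn h2.toFun h'.toFun (K.cell c)) ∧
      h2.toFun '' R = A0 ∧ h2.toFun '' (frontier R) = frontier A0

/-- **(GB3)** from Alexander's theorem and Jordan-Schoenflies on the two-sphere -/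
theorem specCut (hA3 : AmbStd 3) (hJ : JordanSch 2 (sphere (0 : Fin 3 → ℝ) 1)) : SpecCut' :=
  fun _ _ _ _ _ _ _ _ _ _ K h' hΩ hΛ A0 P y R p hball hsub hpat hcr hR hoff harc hcross hv χ h0 h1
    hid hon => specCut_aux hA3 hJ K h' hΩ hΛ A0 P y R p hball hsub hpat hcr hR hoff harc hcross hv χ
      h0 h1 hid hon

end P073.GB200
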